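import Vale.Agent.P209.Defs

/-!
# P209 [A]: the `m^n` alcoves of the simplex of size `m t`
-/

open Set Topology
open scoped ContDiff

namespace P209

namespace AlcoveAux

variable {n : ℕ}

/-- partial sums -/
def ps (x : Fin n → ℝ) (i : Fin n) : ℝ := ∑ j ∈ Finset.Iic i, x j

/-- the matrix of partial sums -/
def Pz (n : ℕ) : Matrix (Fin n) (Fin n) ℤ := Matrix.of fun i j => if j ≤ i then 1 else 0

/-- its real version -/
abbrev cst (M : Matrix (Fin n) (Fin n) ℤ) : Matrix (Fin n) (Fin n) ℝ :=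
  M.map (Int.cast : ℤ → ℝ)

theorem Pz_det : (Pz n).det = 1 := by
  rw [Matrix.det_of_isLowerTriangular]
  · simp [Pz]
  · intro i j hij
    have : i < j := hij
    simp [Pz, this]

theorem ps_eq (x : Fin n → ℝ) : (cst (Pz n)).mulVec x = ps x := by
  funext i
  simp only [Matrix.mulVec, dotProduct, cst, Matrix.map_apply, Pz, Matrix.of_apply, ps]
  rw [← Finset.sum_filter_add_sum_filter_not Finset.univ (fun j => j ≤ i)]
  have h1 : ∑ j with ¬ j ≤ i, ((if j ≤ i then (1 : ℤ) else 0 : ℤ) : ℝ) * x j = 0 :=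
    Finset.sum_eq_zero fun j hj => by simp [(Finset.mem_filter.1 hj).2]
  rw [h1, add_zero]
  have h2 : (Finset.univ.filter fun j => j ≤ i) = Finset.Iic i := by ext; simp
  rw [h2]
  refine Finset.sum_congr rfl fun j hj => ?_
  simp [Finset.mem_Iic.1 hj]

theorem cst_mul (A B : Matrix (Fin n) (Fin n) ℤ) : cst (A * B) = cst A * cst B := by
  unfold cst
  exact Matrix.map_mul (f := Int.castRingHom ℝ)

theorem ps_inv (u : Fin n → ℝ) : ps ((cst (Pz n)⁻¹).mulVec u) = u := by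
  rw [← ps_eq, Matrix.mulVec_mulVec, ← cst_mul, Matrix.mul_nonsing_inv _ (by rw [Pz_det]; exact isUnit_one)]
  have : cst (1 : Matrix (Fin n) (Fin n) ℤ) = 1 := by
    unfold cst
    exact Matrix.map_one _ (by simp) (by simp)
  rw [this, Matrix.one_mulVec]

theorem ps_pos {x : Fin n → ℝ} (hx : ∀ i, 0 < x i) (i : Fin n) : 0 < ps x i :=
  Finset.sum_pos (fun j _ => hx j) ⟨i, by simp⟩

theorem ps_le {x : Fin n → ℝ} (hx : ∀ i, 0 < x i) (i : Fin n) : ps x i ≤ ∑ j, x j :=
  Finset.sum_le_sum_of_subset_of_nonneg (Finset.subset_univ _) fun j _ _ => (hx j).le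

theorem ps_mono {x : Fin n → ℝ} (hx : ∀ i, 0 < x i) : StrictMono (ps x) := by
  intro i k hik
  refine Finset.sum_lt_sum_of_subset (Finset.Iic_subset_Iic.2 hik.le) (i := k) (by simp)
    (by simp [hik]) (hx k) fun j _ _ => (hx j).le

theorem pos_of_ps {x : Fin n → ℝ} (h0 : ∀ i, 0 < ps x i) (hm : StrictMono (ps x)) (i : Fin n) :
    0 < x i := by
  have h1 : ps x i = ∑ j ∈ Finset.Iio i, x j + x i := by
    unfold ps
    rw [← Finset.Iio_insert, Finset.sum_insert (by simp)]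
    ring
  by_cases hi : (i : ℕ) = 0
  · have h2 : Finset.Iio i = ∅ := by
      ext j
      simp only [Finset.mem_Iio, Finset.notMem_empty, iff_false, not_lt]
      exact Fin.le_def.2 (by omega)
    rw [h2, Finset.sum_empty, zero_add] at h1
    rw [← h1]; exact h0 i
  · set k : Fin n := ⟨(i : ℕ) - 1, by omega⟩ with hk
    have h2 : Finset.Iio i = Finset.Iic k := by
      ext j
      simp only [Finset.mem_Iio, Finset.mem_Iic, Fin.lt_def, Fin.le_def, hk]
      omega
    have h3 : k < i := Fin.lt_def.2 (by simp only [hk]; omega)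
    have h4 := hm h3
    rw [h1, h2] at h4
    unfold ps at h4
    linarith

theorem sum_lt_of_ps {x : Fin n → ℝ} {a : ℝ} (ha : 0 < a) (h : ∀ i, ps x i < a) :
    ∑ j, x j < a := by
  rcases Nat.eq_zero_or_pos n with hn | hn
  · subst hn
    simpa using ha
  · have h1 := h ⟨n - 1, by omega⟩
    have h2 : Finset.Iic (⟨n - 1, by omega⟩ : Fin n) = Finset.univ := by
      ext j
      simp only [Finset.mem_Iic, Fin.le_def, Finset.mem_univ, iff_true]
      omega
    unfold ps at h1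
    rwa [h2] at h1

variable {m : ℕ}

/-- the matrix of the alcove `g` -/
noncomputable def MM (g : Fin n → Fin m) : Matrix (Fin n) (Fin n) ℤ :=
  (Pz n)⁻¹ * ((Tuple.sort g).permMatrix ℤ * Pz n)

/-- the shift of the alcove `g` -/
noncomputable def cc (t : ℝ) (g : Fin n → Fin m) : Fin n → ℝ :=
  (cst (Pz n)⁻¹).mulVec fun j => ((g (Tuple.sort g j) : ℕ) : ℝ) * t

theorem MM_det (g : Fin n → Fin m) : IsUnit (MM g).det := by
  unfold MM
  rw [Matrix.det_mul, Matrix.det_mul, Matrix.det_permutation, Pz_det, mul_one]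
  refine IsUnit.mul ?_ (Int.isUnit_iff.2 (Int.isUnit_iff.1 (Units.isUnit _)))
  have h := Matrix.isUnit_nonsing_inv_det (A := Pz n) (by rw [Pz_det]; exact isUnit_one)
  exact h

theorem ps_point (t : ℝ) (g : Fin n → Fin m) (X : Fin n → ℝ) (j : Fin n) :
    ps ((cst (MM g)).mulVec X + cc t g) j =
      ps X (Tuple.sort g j) + ((g (Tuple.sort g j) : ℕ) : ℝ) * t := by
  have h1 : (cst (MM g)).mulVec X + cc t g =
      (cst (Pz n)⁻¹).mulVec (fun j => ps X (Tuple.sort g j) +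
        ((g (Tuple.sort g j) : ℕ) : ℝ) * t) := by
    unfold MM cc
    rw [cst_mul, cst_mul, ← Matrix.mulVec_mulVec, ← Matrix.mulVec_mulVec, ← Matrix.mulVec_add,
      ps_eq]
    congr 1
    have h2 : cst ((Tuple.sort g).permMatrix ℤ) = (Tuple.sort g).permMatrix ℝ := by
      ext a b
      simp [cst, Equiv.Perm.permMatrix, PEquiv.toMatrix_apply]
    rw [h2, Matrix.permMatrix_mulVec]
    rfl
  rw [h1, ps_inv]

theorem ps_lt {t : ℝ} {X : Fin n → ℝ} (hX : X ∈ Sx n t) (i : Fin n) : ps X i < t :=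
  (ps_le hX.1 i).trans_lt hX.2

theorem nat_le {t : ℝ} (ht : 0 < t) {a b : ℕ} {u v : ℝ} (hu : u < t) (hv : 0 < v) (h : a < b) :
    u + a * t < v + b * t := by
  have h1 : ((a : ℝ) + 1) ≤ b := by exact_mod_cast h
  nlinarith

theorem mem_iff (g : Fin n → Fin m) {t : ℝ} (ht : 0 < t) (hm : 1 ≤ m) {X : Fin n → ℝ}
    (hX : X ∈ Sx n t) : (cst (MM g)).mulVec X + cc t g ∈ Sx n (m * t) := by
  have hs := (Tuple.eq_sort_iff (σ := Tuple.sort g) (f := g)).1 rfl
  refine ⟨fun i => pos_of_ps (fun j => ?_) (fun j k hjk => ?_) i, sum_lt_of_ps ?_ fun j => ?_⟩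
  · rw [ps_point]
    have := ps_pos hX.1 (Tuple.sort g j)
    positivity
  · rw [ps_point, ps_point]
    rcases (hs.1 hjk.le).lt_or_eq with h | h
    · exact nat_le ht (ps_lt hX _) (ps_pos hX.1 _) h
    · have h2 := ps_mono hX.1 (hs.2 j k hjk h)
      have h3 : g (Tuple.sort g j) = g (Tuple.sort g k) := h
      rw [h3]
      linarith
  · have : (0 : ℝ) < m := by exact_mod_cast hm
    positivity
  · rw [ps_point]
    have h1 := ps_lt hX (Tuple.sort g j)
    have h2 : ((g (Tuple.sort g j) : ℕ) : ℝ) + 1 ≤ m := by exact_mod_cast (g _).2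
    nlinarith

theorem eq_of_fl {t : ℝ} (ht : 0 < t) {a b : ℕ} {u v : ℝ} (hu0 : 0 < u) (hu : u < t)
    (hv0 : 0 < v) (hv : v < t) (h : u + a * t = v + b * t) : a = b ∧ u = v := by
  have hab : a = b := by
    rcases lt_trichotomy a b with h1 | h1 | h1
    · exact absurd h (nat_le ht hu hv0 h1).ne
    · exact h1
    · exact absurd h (nat_le ht hv hu0 h1).ne'
  subst hab
  exact ⟨rfl, by linarith⟩

theorem disj {t : ℝ} (ht : 0 < t) (g g' : Fin n → Fin m) {X X' : Fin n → ℝ}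
    (hX : X ∈ Sx n t) (hX' : X' ∈ Sx n t)
    (h : (cst (MM g)).mulVec X + cc t g = (cst (MM g')).mulVec X' + cc t g') : g = g' := by
  have h1 : ∀ j, (g (Tuple.sort g j) : ℕ) = g' (Tuple.sort g' j) ∧
      ps X (Tuple.sort g j) = ps X' (Tuple.sort g' j) := by
    intro j
    have h2 := congrArg (fun x => ps x j) h
    simp only [ps_point] at h2
    exact eq_of_fl ht (ps_pos hX.1 _) (ps_lt hX _) (ps_pos hX'.1 _) (ps_lt hX' _) h2
  have h3 : Tuple.sort g = Tuple.sort g' := by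
    have h4 : StrictMono ((Tuple.sort g).symm.trans (Tuple.sort g')) := by
      intro i k hik
      have h5 := ps_mono hX.1 hik
      have h6 := (h1 ((Tuple.sort g).symm i)).2
      have h7 := (h1 ((Tuple.sort g).symm k)).2
      rw [Equiv.apply_symm_apply] at h6 h7
      rw [h6, h7] at h5
      exact (ps_mono hX'.1).lt_iff_lt.1 h5
    have h8 : ((Tuple.sort g).symm.trans (Tuple.sort g')) = Equiv.refl _ := by
      have := (Equiv.Perm.monotone_iff _).1 h4.monotone
      exact this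
    ext j
    have h9 := congrArg (fun e => e ((Tuple.sort g) j)) h8
    simp at h9
    rw [h9]
  funext i
  have h10 := (h1 ((Tuple.sort g).symm i)).1
  rw [Equiv.apply_symm_apply, ← h3, Equiv.apply_symm_apply] at h10
  exact Fin.ext h10

end AlcoveAux

open AlcoveAux in
/-- as `alcoves`, with the last clause for all indices -/
theorem alcoves_strong (n m : ℕ) (hm : 1 ≤ m) {t : ℝ} (ht : 0 < t) :
    ∃ (M : (Fin n → Fin m) → Matrix (Fin n) (Fin n) ℤ) (c : (Fin n → Fin m) → Fin n → ℝ),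
      (∀ g, IsUnit (M g).det) ∧ (∀ g, cpy t (M g) (c g) ⊆ Sx n (m * t)) ∧
      (∀ g g', g ≠ g' → Disjoint (cpy t (M g) (c g)) (cpy t (M g') (c g'))) ∧
      ∀ g i, ∀ x ∈ cpy t (M g) (c g), ((g i : ℕ) : ℝ) * t < ∑ i, x i := by
  refine ⟨MM, cc t, MM_det, fun g => ?_, fun g g' hg => ?_, fun g i => ?_⟩
  · rintro x ⟨X, hX, rfl⟩
    exact mem_iff g ht hm hX
  · rw [Set.disjoint_left]
    rintro x ⟨X, hX, rfl⟩ ⟨X', hX', h⟩
    exact hg (disj ht g g' hX hX' h.symm)
  · rintro x ⟨X, hX, rfl⟩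
    have h1 := mem_iff g ht hm hX
    have h2 := ps_le h1.1 ((Tuple.sort g).symm i)
    have h3 := ps_point t g X ((Tuple.sort g).symm i)
    rw [Equiv.apply_symm_apply] at h3
    have h4 := ps_pos hX.1 i
    rw [h3] at h2
    change ((g i : ℕ) : ℝ) * t < ∑ i, ((cst (MM g)).mulVec X + cc t g) i
    linarith

theorem alcoves (n m : ℕ) (hm : 1 ≤ m) {t : ℝ} (ht : 0 < t) :
    ∃ (M : (Fin n → Fin m) → Matrix (Fin n) (Fin n) ℤ) (c : (Fin n → Fin m) → Fin n → ℝ),
      (∀ g, IsUnit (M g).det) ∧ (∀ g, cpy t (M g) (c g) ⊆ Sx n (m * t)) ∧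
      (∀ g g', g ≠ g' → Disjoint (cpy t (M g) (c g)) (cpy t (M g') (c g'))) ∧
      ∀ g, (∃ i, (g i : ℕ) + 1 = m) → ∀ x ∈ cpy t (M g) (c g), ((m : ℝ) - 1) * t < ∑ i, x i := by
  obtain ⟨M, c, h1, h2, h3, h4⟩ := alcoves_strong n m hm ht
  refine ⟨M, c, h1, h2, h3, fun g ⟨i, hi⟩ x hx => ?_⟩
  have h5 : ((g i : ℕ) : ℝ) = m - 1 := by
    have : ((g i : ℕ) : ℝ) + 1 = m := by exact_mod_cast hi
    linarith
  rw [← h5]
  exact h4 g i x hx

end P209
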