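import Mathlib

/-!
# P209: symplectic packings of a ball by balls. Definitions.
-/

open Set Topology
open scoped ContDiff

namespace P209

/-- `ℂ^n` -/
abbrev Cn (n : ℕ) := EuclideanSpace ℂ (Fin n)

variable {n : ℕ}

/-- The standard symplectic form `ω₀ = ∑ dx_j ∧ dy_j`. -/
noncomputable def omega (v w : Cn n) : ℝ := ∑ j, ((v j).re * (w j).im - (v j).im * (w j).re)

/-- The closed ball of capacity `R`. -/
def B (n : ℕ) (R : ℝ) : Set (Cn n) := {z | Real.pi * ∑ j, ‖z j‖ ^ 2 ≤ R}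

/-- `φ` is a symplectic embedding of the closed ball `B(a)`: it is defined on the open
neighbourhood `U` of the ball, smooth, a topological embedding of `U`, and `φ^* ω₀ = ω₀`. -/
structure IsSympEmb (U : Set (Cn n)) (φ : Cn n → Cn n) (a : ℝ) : Prop where
  isOpen : IsOpen U
  subset : B n a ⊆ U
  smooth : ContDiffOn ℝ ∞ φ U
  emb : IsEmbedding (U.domRestrict φ)
  symp : ∀ z ∈ U, ∀ v w : Cn n, omega (fderiv ℝ φ z v) (fderiv ℝ φ z w) = omega v w

/-- The disjoint union of the balls `B(a i)` embeds symplectically into the open ball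
`Int B(R)`. -/
def Packs (n : ℕ) {ι : Type} (R : ℝ) (a : ι → ℝ) : Prop :=
  ∃ (U : ι → Set (Cn n)) (φ : ι → Cn n → Cn n),
    (∀ i, IsSympEmb (U i) (φ i) (a i)) ∧
    (∀ i, φ i '' B n (a i) ⊆ interior (B n R)) ∧
    ∀ i j, i ≠ j → Disjoint (φ i '' B n (a i)) (φ j '' B n (a j))

/-! ### Toric side -/

/-- The open simplex of size `a` in the moment space. -/
def Sx (n : ℕ) (a : ℝ) : Set (Fin n → ℝ) := {x | (∀ i, 0 < x i) ∧ ∑ i, x i < a}

/-- A unimodular copy of the open simplex: the set `{M x + c : x ∈ Sx n a}`. -/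
def cpy (a : ℝ) (M : Matrix (Fin n) (Fin n) ℤ) (c : Fin n → ℝ) : Set (Fin n → ℝ) :=
  (fun x => (M.map (Int.cast : ℤ → ℝ)).mulVec x + c) '' Sx n a

/-- The moment map. -/
noncomputable def mom (z : Cn n) : Fin n → ℝ := fun j => Real.pi * ‖z j‖ ^ 2

/-- The smooth area preserving map of the plane into the strip `(0,∞) × (-1/2,1/2)`
(action-angle coordinates of the isotonic oscillator), parameter `b > 0`. -/
noncomputable def dm (b p q : ℝ) : ℝ := √(p ^ 2 + q ^ 2 + 2 * b)

noncomputable def dx2 (b p q : ℝ) : ℝ := p ^ 2 + q ^ 2 + b + p * dm b p q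

noncomputable def dX (b p q : ℝ) : ℝ :=
  Real.pi * (p ^ 2 + q ^ 2 + b - b ^ 2 / (2 * dx2 b p q))

noncomputable def dY (b p q : ℝ) : ℝ := (1 / Real.pi) * Real.arctan (q * dm b p q / dx2 b p q)

end P209
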