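import Vale.Agent.P209.Defs

/-!
# P209 [D]: the area preserving map `(p,q) ↦ (dX, dY)`
-/

open Set Topology
open scoped ContDiff

namespace P209

namespace DiscAux

variable {b : ℝ}

theorem m_sq (hb : 0 < b) (p q : ℝ) : dm b p q ^ 2 = p ^ 2 + q ^ 2 + 2 * b := by
  rw [dm, Real.sq_sqrt (by positivity)]

theorem m_pos (hb : 0 < b) (p q : ℝ) : 0 < dm b p q := by
  rw [dm]
  positivity

theorem x2_eq (hb : 0 < b) (p q : ℝ) : dx2 b p q = ((dm b p q + p) ^ 2 + q ^ 2) / 2 := by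
  have := m_sq hb p q
  rw [dx2]
  linear_combination (-1 / 2) * this

theorem x2_pos (hb : 0 < b) (p q : ℝ) : 0 < dx2 b p q := by
  rw [x2_eq hb]
  have hm := m_pos hb p q
  have h1 : 0 < dm b p q + p := by
    have h2 : -p ≤ |p| := neg_le_abs p
    have h3 : |p| < dm b p q := by
      rw [dm]
      apply Real.lt_sqrt_of_sq_lt
      rw [sq_abs]
      nlinarith [sq_nonneg q]
    linarith
  positivity

theorem X_eq (hb : 0 < b) (p q : ℝ) :
    dX b p q = Real.pi * ((dx2 b p q ^ 2 + q ^ 2 * dm b p q ^ 2) / (2 * dx2 b p q)) := by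
  have hx := (x2_pos hb p q).ne'
  have h2 : (dx2 b p q) ^ 2 + q ^ 2 * dm b p q ^ 2 =
      2 * (p ^ 2 + q ^ 2 + b) * dx2 b p q - b ^ 2 := by
    have h3 := m_sq hb p q
    rw [dx2]
    linear_combination (p ^ 2 + q ^ 2) * h3
  rw [dX, h2]
  field_simp

end DiscAux

open DiscAux

theorem dX_pos {b : ℝ} (hb : 0 < b) (p q : ℝ) : 0 < dX b p q := by
  rw [X_eq hb]
  have := x2_pos hb p q
  have := Real.pi_pos
  positivity

theorem dX_lt {b : ℝ} (hb : 0 < b) (p q : ℝ) :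
    dX b p q < Real.pi * (p ^ 2 + q ^ 2) + Real.pi * b := by
  have h1 := x2_pos hb p q
  have h2 := Real.pi_pos
  have h3 : 0 < b ^ 2 / (2 * dx2 b p q) := by positivity
  rw [dX]
  nlinarith

theorem dY_mem {b : ℝ} (hb : 0 < b) (p q : ℝ) : dY b p q ∈ Ioo (-(1 / 2) : ℝ) (1 / 2) := by
  have h := Real.arctan_mem_Ioo (q * dm b p q / dx2 b p q)
  have hpi := Real.pi_pos
  rw [dY, show (1 / Real.pi) * Real.arctan (q * dm b p q / dx2 b p q) =
    Real.arctan (q * dm b p q / dx2 b p q) / Real.pi by ring]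
  constructor
  · rw [lt_div_iff₀ hpi]
    linarith [h.1]
  · rw [div_lt_iff₀ hpi]
    linarith [h.2]

theorem d_inv {b : ℝ} (hb : 0 < b) : ∃ g : ℝ × ℝ → ℝ × ℝ,
    ContinuousOn g (Ioi (0 : ℝ) ×ˢ Ioo (-(1 / 2) : ℝ) (1 / 2)) ∧
      ∀ p q : ℝ, g (dX b p q, dY b p q) = (p, q) := by
  let τ : ℝ × ℝ → ℝ := fun z => Real.tan (Real.pi * z.2)
  let x2 : ℝ × ℝ → ℝ := fun z => 2 * z.1 / (Real.pi * (1 + τ z ^ 2))
  let En : ℝ × ℝ → ℝ := fun z => z.1 / Real.pi + b ^ 2 / (2 * x2 z)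
  let m : ℝ × ℝ → ℝ := fun z => √(En z + b)
  refine ⟨fun z => ((x2 z - En z) / m z, τ z * x2 z / m z), ?_, ?_⟩
  · have hpi := Real.pi_pos
    have hτ : ContinuousOn τ (Ioi (0 : ℝ) ×ˢ Ioo (-(1 / 2) : ℝ) (1 / 2)) := by
      intro z hz
      refine ContinuousAt.continuousWithinAt ?_
      have hc : Real.cos (Real.pi * z.2) ≠ 0 := by
        apply ne_of_gt
        apply Real.cos_pos_of_mem_Ioo
        constructor
        · nlinarith [hz.2.1]
        · nlinarith [hz.2.2]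
      exact ContinuousAt.comp (g := Real.tan) (f := fun z : ℝ × ℝ => Real.pi * z.2) (x := z)
        (Real.continuousAt_tan.2 hc) (by fun_prop)
    have hx2 : ContinuousOn x2 (Ioi (0 : ℝ) ×ˢ Ioo (-(1 / 2) : ℝ) (1 / 2)) := by
      refine ContinuousOn.div (by fun_prop) (by fun_prop) fun z _ => ?_
      positivity
    have hx2p : ∀ z ∈ (Ioi (0 : ℝ) ×ˢ Ioo (-(1 / 2) : ℝ) (1 / 2) : Set (ℝ × ℝ)), 0 < x2 z := by
      intro z hz
      have : 0 < z.1 := hz.1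
      simp only [x2]
      positivity
    have hE : ContinuousOn En (Ioi (0 : ℝ) ×ˢ Ioo (-(1 / 2) : ℝ) (1 / 2)) := by
      refine ContinuousOn.add (by fun_prop) (ContinuousOn.div (by fun_prop) (by fun_prop) ?_)
      intro z hz
      have := hx2p z hz
      positivity
    have hm : ContinuousOn m (Ioi (0 : ℝ) ×ˢ Ioo (-(1 / 2) : ℝ) (1 / 2)) := by
      exact (hE.add continuousOn_const).sqrt
    have hmp : ∀ z ∈ (Ioi (0 : ℝ) ×ˢ Ioo (-(1 / 2) : ℝ) (1 / 2) : Set (ℝ × ℝ)), m z ≠ 0 := by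
      intro z hz
      have h1 : 0 < z.1 := hz.1
      have h2 := hx2p z hz
      simp only [m, En]
      positivity
    exact ((hx2.sub hE).div hm hmp).prodMk ((hτ.mul hx2).div hm hmp)
  · intro p q
    have hpi := Real.pi_pos
    have hx := x2_pos hb p q
    have hm := m_pos hb p q
    have hτ : τ (dX b p q, dY b p q) = q * dm b p q / dx2 b p q := by
      simp only [τ, dY]
      rw [← mul_assoc, mul_one_div_cancel hpi.ne', one_mul, Real.tan_arctan]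
    have hx2 : x2 (dX b p q, dY b p q) = dx2 b p q := by
      simp only [x2]
      rw [hτ, X_eq hb]
      field_simp
    have hE : En (dX b p q, dY b p q) = p ^ 2 + q ^ 2 + b := by
      simp only [En]
      rw [hx2, dX]
      field_simp
      ring
    have hmm : m (dX b p q, dY b p q) = dm b p q := by
      simp only [m]
      rw [hE, dm]
      congr 1
      ring
    ext
    · simp only
      rw [hx2, hE, hmm, dx2]
      field_simp
      ring
    · simp only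
      rw [hτ, hx2, hmm]
      field_simp

theorem dm_smooth {b : ℝ} (hb : 0 < b) : ContDiff ℝ ∞ fun z : ℝ × ℝ => dm b z.1 z.2 := by
  unfold dm
  refine ContDiff.sqrt (by fun_prop) fun z => ?_
  positivity

theorem dx2_smooth {b : ℝ} (hb : 0 < b) : ContDiff ℝ ∞ fun z : ℝ × ℝ => dx2 b z.1 z.2 := by
  unfold dx2
  have := dm_smooth hb
  fun_prop

theorem dX_smooth {b : ℝ} (hb : 0 < b) : ContDiff ℝ ∞ fun z : ℝ × ℝ => dX b z.1 z.2 := by
  unfold dX
  have h := dx2_smooth hb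
  refine ContDiff.mul contDiff_const (ContDiff.sub (by fun_prop) ?_)
  refine ContDiff.div contDiff_const (by fun_prop) fun z => ?_
  have := x2_pos hb z.1 z.2
  positivity

theorem dY_smooth {b : ℝ} (hb : 0 < b) : ContDiff ℝ ∞ fun z : ℝ × ℝ => dY b z.1 z.2 := by
  unfold dY
  have h := dx2_smooth hb
  have h' := dm_smooth hb
  refine ContDiff.mul contDiff_const (ContDiff.arctan ?_)
  exact ContDiff.div (by fun_prop) h fun z => (x2_pos hb z.1 z.2).ne'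

namespace DiscAux

/-- the linear form `v ↦ α v.1 + β v.2` -/
noncomputable def lf (α β : ℝ) : ℝ × ℝ →L[ℝ] ℝ :=
  α • ContinuousLinearMap.fst ℝ ℝ ℝ + β • ContinuousLinearMap.snd ℝ ℝ ℝ

theorem lf_apply (α β : ℝ) (v : ℝ × ℝ) : lf α β v = α * v.1 + β * v.2 := by
  simp [lf]

theorem hfst (z : ℝ × ℝ) : HasFDerivAt (fun z : ℝ × ℝ => z.1) (lf 1 0) z := by
  have : lf 1 0 = ContinuousLinearMap.fst ℝ ℝ ℝ := by ext <;> simp [lf]
  rw [this]
  exact hasFDerivAt_fst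

theorem hsnd (z : ℝ × ℝ) : HasFDerivAt (fun z : ℝ × ℝ => z.2) (lf 0 1) z := by
  have : lf 0 1 = ContinuousLinearMap.snd ℝ ℝ ℝ := by ext <;> simp [lf]
  rw [this]
  exact hasFDerivAt_snd

theorem hs {b : ℝ} (z : ℝ × ℝ) (c : ℝ) :
    HasFDerivAt (fun z : ℝ × ℝ => z.1 ^ 2 + z.2 ^ 2 + c * b) (lf (2 * z.1) (2 * z.2)) z := by
  have h1 := ((hfst z).pow 2).add ((hsnd z).pow 2) |>.add_const (c * b)
  refine h1.congr_fderiv ?_
  ext <;> simp [lf]

theorem hm {b : ℝ} (hb : 0 < b) (z : ℝ × ℝ) :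
    HasFDerivAt (fun z : ℝ × ℝ => dm b z.1 z.2)
      (lf (z.1 / dm b z.1 z.2) (z.2 / dm b z.1 z.2)) z := by
  have h1 : HasFDerivAt (fun z : ℝ × ℝ => √(z.1 ^ 2 + z.2 ^ 2 + 2 * b)) _ z :=
    (hs (b := b) z 2).sqrt (by positivity)
  refine h1.congr_fderiv ?_
  have hm := (m_pos hb z.1 z.2).ne'
  rw [show √(z.1 ^ 2 + z.2 ^ 2 + 2 * b) = dm b z.1 z.2 from rfl]
  ext
  · simp [lf]
    field_simp
  · simp [lf]
    field_simp

theorem hx2 {b : ℝ} (hb : 0 < b) (z : ℝ × ℝ) :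
    HasFDerivAt (fun z : ℝ × ℝ => dx2 b z.1 z.2)
      (lf (2 * z.1 + dm b z.1 z.2 + z.1 ^ 2 / dm b z.1 z.2)
        (2 * z.2 + z.1 * z.2 / dm b z.1 z.2)) z := by
  have h1 := (hs (b := b) z 1).add ((hfst z).mul (hm hb z))
  refine (h1.congr_of_eventuallyEq (Filter.Eventually.of_forall fun y => ?_)).congr_fderiv ?_
  · simp only [dx2, one_mul, Pi.add_apply, Pi.mul_apply]
  ext
  · simp [lf]
    ring
  · simp [lf]
    ring

theorem hX {b : ℝ} (hb : 0 < b) (z : ℝ × ℝ) :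
    HasFDerivAt (fun z : ℝ × ℝ => dX b z.1 z.2)
      (lf (Real.pi * (2 * z.1 + b ^ 2 * (2 * z.1 + dm b z.1 z.2 + z.1 ^ 2 / dm b z.1 z.2) /
          (2 * dx2 b z.1 z.2 ^ 2)))
        (Real.pi * (2 * z.2 + b ^ 2 * (2 * z.2 + z.1 * z.2 / dm b z.1 z.2) /
          (2 * dx2 b z.1 z.2 ^ 2)))) z := by
  have hx := (x2_pos hb z.1 z.2).ne'
  have hi : HasFDerivAt (fun z : ℝ × ℝ => (dx2 b z.1 z.2)⁻¹) _ z :=
    (hasDerivAt_inv hx).comp_hasFDerivAt z (hx2 hb z)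
  have h1 := ((hs (b := b) z 1).sub (hi.const_mul (b ^ 2 / 2))).const_mul Real.pi
  refine (h1.congr_of_eventuallyEq (Filter.Eventually.of_forall fun y => ?_)).congr_fderiv ?_
  · simp only [dX, one_mul, Pi.sub_apply]
    congr 2
    rw [div_eq_mul_inv, mul_inv]
    ring
  ext
  · simp [lf]
    field_simp
  · simp [lf]
    field_simp

theorem hY {b : ℝ} (hb : 0 < b) (z : ℝ × ℝ) :
    HasFDerivAt (fun z : ℝ × ℝ => dY b z.1 z.2)
      (lf ((1 / Real.pi) * ((z.2 * z.1 / dm b z.1 z.2 * dx2 b z.1 z.2 - z.2 * dm b z.1 z.2 *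
          (2 * z.1 + dm b z.1 z.2 + z.1 ^ 2 / dm b z.1 z.2)) /
          (dx2 b z.1 z.2 ^ 2 + z.2 ^ 2 * dm b z.1 z.2 ^ 2)))
        ((1 / Real.pi) * (((dm b z.1 z.2 + z.2 ^ 2 / dm b z.1 z.2) * dx2 b z.1 z.2 -
          z.2 * dm b z.1 z.2 * (2 * z.2 + z.1 * z.2 / dm b z.1 z.2)) /
          (dx2 b z.1 z.2 ^ 2 + z.2 ^ 2 * dm b z.1 z.2 ^ 2)))) z := by
  have hx := (x2_pos hb z.1 z.2).ne'
  have hmp := (m_pos hb z.1 z.2).ne'
  have hi : HasFDerivAt (fun z : ℝ × ℝ => (dx2 b z.1 z.2)⁻¹) _ z :=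
    (hasDerivAt_inv hx).comp_hasFDerivAt z (hx2 hb z)
  have h1 := (((hsnd z).mul (hm hb z)).mul hi).arctan.const_mul (1 / Real.pi)
  refine (h1.congr_of_eventuallyEq (Filter.Eventually.of_forall fun y => ?_)).congr_fderiv ?_
  · simp only [dY, Pi.mul_apply, div_eq_mul_inv]
  ext
  · simp [lf]
    field_simp
    ring
  · simp [lf]
    field_simp
    ring

end DiscAux

/-- area preservation -/
theorem d_area {b : ℝ} (hb : 0 < b) (z v w : ℝ × ℝ) :
    fderiv ℝ (fun z : ℝ × ℝ => dX b z.1 z.2) z v * fderiv ℝ (fun z : ℝ × ℝ => dY b z.1 z.2) z w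
      - fderiv ℝ (fun z : ℝ × ℝ => dY b z.1 z.2) z v *
        fderiv ℝ (fun z : ℝ × ℝ => dX b z.1 z.2) z w = v.1 * w.2 - v.2 * w.1 := by
  rw [(hX hb z).fderiv, (hY hb z).fderiv]
  simp only [lf_apply]
  have hx := (x2_pos hb z.1 z.2).ne'
  have hmp := (m_pos hb z.1 z.2).ne'
  have hpi := Real.pi_pos.ne'
  have hb' : b = (dm b z.1 z.2 ^ 2 - z.1 ^ 2 - z.2 ^ 2) / 2 := by
    rw [m_sq hb]
    ring
  have hx2 := x2_eq hb z.1 z.2
  have hden : dx2 b z.1 z.2 ^ 2 + z.2 ^ 2 * dm b z.1 z.2 ^ 2 ≠ 0 := by positivity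
  obtain ⟨p, q⟩ := z
  obtain ⟨v1, v2⟩ := v
  obtain ⟨w1, w2⟩ := w
  simp only at *
  have key : (2 * p + b ^ 2 * (2 * p + dm b p q + p ^ 2 / dm b p q) / (2 * dx2 b p q ^ 2)) *
      ((dm b p q + q ^ 2 / dm b p q) * dx2 b p q - q * dm b p q * (2 * q + p * q / dm b p q)) -
      (2 * q + b ^ 2 * (2 * q + p * q / dm b p q) / (2 * dx2 b p q ^ 2)) *
      (q * p / dm b p q * dx2 b p q - q * dm b p q * (2 * p + dm b p q + p ^ 2 / dm b p q)) =
      dx2 b p q ^ 2 + q ^ 2 * dm b p q ^ 2 := by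
    clear hden
    generalize dm b p q = m at *
    generalize dx2 b p q = x at *
    have hx' : (m + p) ^ 2 + q ^ 2 ≠ 0 := by
      intro h
      apply hx
      rw [hx2, h, zero_div]
    subst hb'
    subst hx2
    field_simp
    ring
  generalize dx2 b p q ^ 2 + q ^ 2 * dm b p q ^ 2 = N at *
  generalize (2 * p + b ^ 2 * (2 * p + dm b p q + p ^ 2 / dm b p q) / (2 * dx2 b p q ^ 2)) = Xp at *
  generalize (2 * q + b ^ 2 * (2 * q + p * q / dm b p q) / (2 * dx2 b p q ^ 2)) = Xq at *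
  generalize ((dm b p q + q ^ 2 / dm b p q) * dx2 b p q -
    q * dm b p q * (2 * q + p * q / dm b p q)) = yq at *
  generalize (q * p / dm b p q * dx2 b p q -
    q * dm b p q * (2 * p + dm b p q + p ^ 2 / dm b p q)) = yp at *
  field_simp
  linear_combination (v1 * w2 - v2 * w1) * key

end P209
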