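import Vale.Agent.P209.Defs

/-!
# P209 [P]: the map `(x,y) ↦ √(x/π) exp(2π i y)`
-/

open Set Topology
open scoped ContDiff

namespace P209

noncomputable def pol (x y : ℝ) : ℂ := (√(x / Real.pi) : ℂ) * Complex.exp (2 * Real.pi * y * Complex.I)

namespace PolarAux

theorem r_smooth : ContDiffOn ℝ ∞ (fun z : ℝ × ℝ => √(z.1 / Real.pi)) (Ioi (0 : ℝ) ×ˢ univ) := by
  have h1 : ContDiffOn ℝ ∞ (fun z : ℝ × ℝ => z.1 / Real.pi) (Ioi (0 : ℝ) ×ˢ univ) :=
    (contDiff_fst.div_const _).contDiffOn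
  refine h1.sqrt fun z hz => ?_
  have : (0 : ℝ) < z.1 := hz.1
  exact (div_pos this Real.pi_pos).ne'

theorem e_smooth : ContDiff ℝ ∞ (fun z : ℝ × ℝ => Complex.exp (2 * Real.pi * z.2 * Complex.I)) := by
  have h1 : ContDiff ℝ ∞ (fun z : ℝ × ℝ => (2 * Real.pi * (z.2 : ℂ) * Complex.I)) := by
    have h2 : ContDiff ℝ ∞ (fun z : ℝ × ℝ => (z.2 : ℂ)) :=
      Complex.ofRealCLM.contDiff.comp contDiff_snd
    exact (contDiff_const.mul h2).mul contDiff_const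
  exact h1.cexp

theorem hasFDerivAt_e (z : ℝ × ℝ) :
    HasFDerivAt (fun z : ℝ × ℝ => Complex.exp (2 * Real.pi * z.2 * Complex.I))
      ((Complex.exp (2 * Real.pi * z.2 * Complex.I) * (2 * Real.pi * Complex.I)) •
        (Complex.ofRealCLM.comp (ContinuousLinearMap.snd ℝ ℝ ℝ))) z := by
  have h2 : HasFDerivAt (fun z : ℝ × ℝ => (z.2 : ℂ))
      (Complex.ofRealCLM.comp (ContinuousLinearMap.snd ℝ ℝ ℝ)) z :=
    Complex.ofRealCLM.hasFDerivAt.comp z hasFDerivAt_snd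
  have h3 := (h2.const_mul (2 * Real.pi * Complex.I)).cexp
  have e1 : (fun z : ℝ × ℝ => Complex.exp (2 * Real.pi * z.2 * Complex.I)) =
      fun z : ℝ × ℝ => Complex.exp (2 * Real.pi * Complex.I * z.2) := by
    funext z
    congr 1
    ring
  rw [e1]
  convert! h3 using 1
  ext <;> simp; ring_nf

theorem hasFDerivAt_r {z : ℝ × ℝ} (hz : 0 < z.1) :
    HasFDerivAt (fun z : ℝ × ℝ => ((√(z.1 / Real.pi) : ℝ) : ℂ))
      (Complex.ofRealCLM.comp ((1 / (2 * √(z.1 / Real.pi)) * Real.pi⁻¹) •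
        (ContinuousLinearMap.fst ℝ ℝ ℝ))) z := by
  have h1 : HasFDerivAt (fun z : ℝ × ℝ => z.1 / Real.pi)
      (Real.pi⁻¹ • (ContinuousLinearMap.fst ℝ ℝ ℝ)) z := by
    have := (hasFDerivAt_fst (𝕜 := ℝ) (E := ℝ) (F := ℝ) (p := z)).const_mul Real.pi⁻¹
    refine this.congr_of_eventuallyEq (Filter.Eventually.of_forall fun w => ?_)
    simp only [div_eq_inv_mul]
  have h2 := h1.sqrt (div_pos hz Real.pi_pos).ne'
  have h3 := Complex.ofRealCLM.hasFDerivAt.comp z h2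
  convert! h3 using 1
  ext <;> simp

end PolarAux

theorem pol_smooth : ContDiffOn ℝ ∞ (fun z : ℝ × ℝ => pol z.1 z.2) (Ioi (0 : ℝ) ×ˢ univ) := by
  unfold pol
  refine ContDiffOn.mul ?_ PolarAux.e_smooth.contDiffOn
  exact Complex.ofRealCLM.contDiff.comp_contDiffOn PolarAux.r_smooth

theorem pol_norm {x : ℝ} (hx : 0 ≤ x) (y : ℝ) : Real.pi * ‖pol x y‖ ^ 2 = x := by
  unfold pol
  have h1 : ‖Complex.exp (2 * Real.pi * y * Complex.I)‖ = 1 := by
    have := Complex.norm_exp_ofReal_mul_I (2 * Real.pi * y)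
    push_cast at this
    exact this
  rw [norm_mul, h1, mul_one, Complex.norm_real, Real.norm_eq_abs, sq_abs,
    Real.sq_sqrt (div_nonneg hx Real.pi_pos.le)]
  field_simp

theorem pol_area {z : ℝ × ℝ} (hz : 0 < z.1) (v w : ℝ × ℝ) :
    (fderiv ℝ (fun z : ℝ × ℝ => pol z.1 z.2) z v).re * (fderiv ℝ (fun z : ℝ × ℝ => pol z.1 z.2) z w).im
      - (fderiv ℝ (fun z : ℝ × ℝ => pol z.1 z.2) z v).im *
        (fderiv ℝ (fun z : ℝ × ℝ => pol z.1 z.2) z w).re = v.1 * w.2 - v.2 * w.1 := by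
  have h := (PolarAux.hasFDerivAt_r hz).mul (PolarAux.hasFDerivAt_e z)
  have hf : fderiv ℝ (fun z : ℝ × ℝ => pol z.1 z.2) z = _ := h.fderiv
  rw [hf]
  set r : ℝ := √(z.1 / Real.pi) with hr
  have hr0 : 0 < r := Real.sqrt_pos.2 (div_pos hz Real.pi_pos)
  have hexp : Complex.exp (2 * Real.pi * z.2 * Complex.I) =
      (Real.cos (2 * Real.pi * z.2) : ℂ) + (Real.sin (2 * Real.pi * z.2) : ℂ) * Complex.I := by
    rw [← Complex.ofReal_ofNat, ← Complex.ofReal_mul, ← Complex.ofReal_mul, Complex.exp_mul_I,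
      Complex.ofReal_cos, Complex.ofReal_sin]
  rw [hexp]
  set C := Real.cos (2 * Real.pi * z.2) with hC
  set S := Real.sin (2 * Real.pi * z.2) with hS
  have hCS : C ^ 2 + S ^ 2 = 1 := by rw [hC, hS]; exact Real.cos_sq_add_sin_sq _
  simp
  field_simp
  linear_combination (r ^ 2 * 2 ^ 2 * Real.pi ^ 2 * (v.1 * w.2 - v.2 * w.1)) * hCS

end P209
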