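import Vale.Agent.P209.Disc
import Vale.Agent.P209.Polar

/-!
# P209 [T]: from disjoint unimodular simplices in the moment space to packings
-/

open Set Topology
open scoped ContDiff

namespace P209

variable {n : ℕ}

/-! ### the complex forms of the planar map -/

noncomputable def tX (b : ℝ) (u : ℂ) : ℝ := dX b u.re u.im
noncomputable def tY (b : ℝ) (u : ℂ) : ℝ := dY b u.re u.im

/-- the linear map `ℂ → ℝ × ℝ` -/
noncomputable def cpl : ℂ →L[ℝ] ℝ × ℝ := Complex.reCLM.prod Complex.imCLM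

theorem tX_eq (b : ℝ) : tX b = (fun z : ℝ × ℝ => dX b z.1 z.2) ∘ cpl := rfl
theorem tY_eq (b : ℝ) : tY b = (fun z : ℝ × ℝ => dY b z.1 z.2) ∘ cpl := rfl

theorem tX_smooth {b : ℝ} (hb : 0 < b) : ContDiff ℝ ∞ (tX b) := by
  rw [tX_eq]; exact (dX_smooth hb).comp cpl.contDiff

theorem tY_smooth {b : ℝ} (hb : 0 < b) : ContDiff ℝ ∞ (tY b) := by
  rw [tY_eq]; exact (dY_smooth hb).comp cpl.contDiff

theorem t_area {b : ℝ} (hb : 0 < b) (u v w : ℂ) :
    fderiv ℝ (tX b) u v * fderiv ℝ (tY b) u w - fderiv ℝ (tY b) u v * fderiv ℝ (tX b) u w =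
      v.re * w.im - v.im * w.re := by
  have h1 : fderiv ℝ (tX b) u = (fderiv ℝ (fun z : ℝ × ℝ => dX b z.1 z.2) (cpl u)).comp cpl := by
    rw [tX_eq, fderiv_comp u ((dX_smooth hb).differentiable (by simp)).differentiableAt
      cpl.differentiableAt, cpl.fderiv]
  have h2 : fderiv ℝ (tY b) u = (fderiv ℝ (fun z : ℝ × ℝ => dY b z.1 z.2) (cpl u)).comp cpl := by
    rw [tY_eq, fderiv_comp u ((dY_smooth hb).differentiable (by simp)).differentiableAt
      cpl.differentiableAt, cpl.fderiv]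
  have h3 := d_area hb (cpl u) (cpl v) (cpl w)
  rw [h1, h2]
  exact h3

/-! ### the map -/

noncomputable def XX (b : ℝ) (M : Matrix (Fin n) (Fin n) ℝ) (c : Fin n → ℝ) (z : Cn n) (j : Fin n) :
    ℝ := ∑ k, M j k * tX b (z k) + c j

noncomputable def YY (b : ℝ) (N : Matrix (Fin n) (Fin n) ℝ) (z : Cn n) (j : Fin n) : ℝ :=
  ∑ k, N k j * tY b (z k)

noncomputable def Phi (b : ℝ) (M N : Matrix (Fin n) (Fin n) ℝ) (c : Fin n → ℝ) (z : Cn n) : Cn n :=
  WithLp.toLp 2 fun j => pol (XX b M c z j) (YY b N z j)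

theorem XX_smooth {b : ℝ} (hb : 0 < b) (M : Matrix (Fin n) (Fin n) ℝ) (c : Fin n → ℝ) (j : Fin n) :
    ContDiff ℝ ∞ (fun z : Cn n => XX b M c z j) := by
  unfold XX
  refine ContDiff.add (ContDiff.sum fun k _ => contDiff_const.mul ?_) contDiff_const
  exact (tX_smooth hb).comp (contDiff_piLp_apply 2)

theorem YY_smooth {b : ℝ} (hb : 0 < b) (N : Matrix (Fin n) (Fin n) ℝ) (j : Fin n) :
    ContDiff ℝ ∞ (fun z : Cn n => YY b N z j) := by
  unfold YY
  refine ContDiff.sum fun k _ => contDiff_const.mul ?_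
  exact (tY_smooth hb).comp (contDiff_piLp_apply 2)

theorem XX_fderiv {b : ℝ} (hb : 0 < b) (M : Matrix (Fin n) (Fin n) ℝ) (c : Fin n → ℝ) (j : Fin n)
    (z v : Cn n) : fderiv ℝ (fun z : Cn n => XX b M c z j) z v =
      ∑ k, M j k * fderiv ℝ (tX b) (z k) (v k) := by
  have h : HasFDerivAt (fun z : Cn n => XX b M c z j)
      (∑ k, M j k • (fderiv ℝ (tX b) (z k)).comp (PiLp.proj 2 (fun _ => ℂ) k)) z := by
    unfold XX
    refine HasFDerivAt.add_const _ (HasFDerivAt.fun_sum fun k _ => HasFDerivAt.const_mul ?_ _)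
    have h1 : HasFDerivAt (tX b) (fderiv ℝ (tX b) (z k)) (z k) :=
      ((tX_smooth hb).differentiable (by simp)).differentiableAt.hasFDerivAt
    exact h1.comp z (PiLp.hasFDerivAt_apply (𝕜 := ℝ) 2 z k)
  rw [h.fderiv]
  simp

theorem YY_fderiv {b : ℝ} (hb : 0 < b) (N : Matrix (Fin n) (Fin n) ℝ) (j : Fin n)
    (z v : Cn n) : fderiv ℝ (fun z : Cn n => YY b N z j) z v =
      ∑ k, N k j * fderiv ℝ (tY b) (z k) (v k) := by
  have h : HasFDerivAt (fun z : Cn n => YY b N z j)
      (∑ k, N k j • (fderiv ℝ (tY b) (z k)).comp (PiLp.proj 2 (fun _ => ℂ) k)) z := by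
    unfold YY
    refine HasFDerivAt.fun_sum fun k _ => HasFDerivAt.const_mul ?_ _
    have h1 : HasFDerivAt (tY b) (fderiv ℝ (tY b) (z k)) (z k) :=
      ((tY_smooth hb).differentiable (by simp)).differentiableAt.hasFDerivAt
    exact h1.comp z (PiLp.hasFDerivAt_apply (𝕜 := ℝ) 2 z k)
  rw [h.fderiv]
  simp

theorem Phi_smooth {b : ℝ} (hb : 0 < b) (M N : Matrix (Fin n) (Fin n) ℝ) (c : Fin n → ℝ)
    {U : Set (Cn n)} (hpos : ∀ z ∈ U, ∀ j, 0 < XX b M c z j) :
    ContDiffOn ℝ ∞ (Phi b M N c) U := by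
  refine contDiffOn_piLp' 2 fun j => ?_
  have h1 : ContDiffOn ℝ ∞ (fun z : Cn n => (XX b M c z j, YY b N z j)) U :=
    ((XX_smooth hb M c j).prodMk (YY_smooth hb N j)).contDiffOn
  exact pol_smooth.comp h1 fun z hz => ⟨hpos z hz j, mem_univ _⟩

theorem Phi_fderiv {b : ℝ} (hb : 0 < b) (M N : Matrix (Fin n) (Fin n) ℝ) (c : Fin n → ℝ)
    {z : Cn n} (hpos : ∀ j, 0 < XX b M c z j) (v : Cn n) (j : Fin n) :
    (fderiv ℝ (Phi b M N c) z v) j =
      fderiv ℝ (fun z : ℝ × ℝ => pol z.1 z.2) (XX b M c z j, YY b N z j)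
        (∑ k, M j k * fderiv ℝ (tX b) (z k) (v k), ∑ k, N k j * fderiv ℝ (tY b) (z k) (v k)) := by
  have h0 : ∀ j, HasFDerivAt (fun z : Cn n => (XX b M c z j, YY b N z j))
      ((fderiv ℝ (fun z : Cn n => XX b M c z j) z).prod (fderiv ℝ (fun z : Cn n => YY b N z j) z))
      z := fun j =>
    (((XX_smooth hb M c j).differentiable (by simp)).differentiableAt.hasFDerivAt).prodMk
      (((YY_smooth hb N j).differentiable (by simp)).differentiableAt.hasFDerivAt)
  have hp : ∀ j, HasFDerivAt (fun z : ℝ × ℝ => pol z.1 z.2)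
      (fderiv ℝ (fun z : ℝ × ℝ => pol z.1 z.2) (XX b M c z j, YY b N z j))
      (XX b M c z j, YY b N z j) := by
    intro j
    have hmem : (Ioi (0 : ℝ) ×ˢ (univ : Set ℝ)) ∈ 𝓝 (XX b M c z j, YY b N z j) :=
      (isOpen_Ioi.prod isOpen_univ).mem_nhds ⟨hpos j, mem_univ _⟩
    exact ((pol_smooth.contDiffAt hmem).differentiableAt (by simp)).hasFDerivAt
  have hj : ∀ j, HasFDerivAt (fun z : Cn n => Phi b M N c z j)
      ((fderiv ℝ (fun z : ℝ × ℝ => pol z.1 z.2) (XX b M c z j, YY b N z j)).comp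
        ((fderiv ℝ (fun z : Cn n => XX b M c z j) z).prod
          (fderiv ℝ (fun z : Cn n => YY b N z j) z))) z := fun j =>
    HasFDerivAt.comp (g := fun z : ℝ × ℝ => pol z.1 z.2) z (hp j) (h0 j)
  have hd : DifferentiableAt ℝ (Phi b M N c) z := by
    rw [differentiableAt_piLp]
    exact fun j => (hj j).differentiableAt
  have h2 := (PiLp.hasFDerivAt_apply (𝕜 := ℝ) 2 (Phi b M N c z) j).comp z hd.hasFDerivAt
  have h3 : (PiLp.proj 2 (fun _ : Fin n => ℂ) j).comp (fderiv ℝ (Phi b M N c) z) = _ :=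
    h2.unique (hj j)
  have h4 := congrArg (fun L : Cn n →L[ℝ] ℂ => L v) h3
  simp only [ContinuousLinearMap.comp_apply, PiLp.proj_apply, ContinuousLinearMap.prod_apply] at h4
  rw [h4, XX_fderiv hb, YY_fderiv hb]

theorem Phi_symp {b : ℝ} (hb : 0 < b) (M N : Matrix (Fin n) (Fin n) ℝ) (c : Fin n → ℝ)
    (hNM : N * M = 1)
    {z : Cn n} (hpos : ∀ j, 0 < XX b M c z j) (v w : Cn n) :
    omega (fderiv ℝ (Phi b M N c) z v) (fderiv ℝ (Phi b M N c) z w) = omega v w := by
  have hN : ∀ k l, ∑ j, N k j * M j l = if k = l then 1 else 0 := by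
    intro k l
    rw [← Matrix.mul_apply, hNM, Matrix.one_apply]
  have key : ∀ A B : Fin n → ℝ,
      ∑ j, (∑ l, M j l * A l) * (∑ k, N k j * B k) = ∑ k, A k * B k := by
    intro A B
    calc ∑ j, (∑ l, M j l * A l) * (∑ k, N k j * B k)
        = ∑ j, ∑ l, ∑ k, (M j l * A l) * (N k j * B k) := by
          refine Finset.sum_congr rfl fun j _ => ?_
          rw [Finset.sum_mul_sum]
      _ = ∑ k, ∑ l, (∑ j, N k j * M j l) * (A l * B k) := by
          have e1 : ∀ k l, (∑ j, N k j * M j l) * (A l * B k) =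
              ∑ j, (M j l * A l) * (N k j * B k) := by
            intro k l
            rw [Finset.sum_mul]
            exact Finset.sum_congr rfl fun j _ => by ring
          simp only [e1]
          rw [Finset.sum_comm]
          have e2 : ∀ l, ∑ j, ∑ k, (M j l * A l) * (N k j * B k) =
              ∑ k, ∑ j, (M j l * A l) * (N k j * B k) := fun l => Finset.sum_comm
          simp only [e2]
          rw [Finset.sum_comm]
      _ = ∑ k, A k * B k := by
          refine Finset.sum_congr rfl fun k _ => ?_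
          simp [hN]
  unfold omega
  calc ∑ j, (((fderiv ℝ (Phi b M N c) z v) j).re * ((fderiv ℝ (Phi b M N c) z w) j).im
        - ((fderiv ℝ (Phi b M N c) z v) j).im * ((fderiv ℝ (Phi b M N c) z w) j).re)
      = ∑ j, ((∑ k, M j k * fderiv ℝ (tX b) (z k) (v k)) * (∑ k, N k j * fderiv ℝ (tY b) (z k) (w k))
        - (∑ k, M j k * fderiv ℝ (tX b) (z k) (w k)) *
          (∑ k, N k j * fderiv ℝ (tY b) (z k) (v k))) := by
        refine Finset.sum_congr rfl fun j _ => ?_
        rw [Phi_fderiv hb M N c hpos v j, Phi_fderiv hb M N c hpos w j,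
          pol_area (z := (XX b M c z j, YY b N z j)) (hpos j)]
        ring
    _ = ∑ k, (fderiv ℝ (tX b) (z k) (v k) * fderiv ℝ (tY b) (z k) (w k)
        - fderiv ℝ (tX b) (z k) (w k) * fderiv ℝ (tY b) (z k) (v k)) := by
        rw [Finset.sum_sub_distrib, key, key, ← Finset.sum_sub_distrib]
    _ = _ := by
        refine Finset.sum_congr rfl fun k _ => ?_
        have := t_area hb (z k) (v k) (w k)
        linarith

/-! ### the inverse -/

/-- `w / |w|` -/
noncomputable def sgn (w : ℂ) : ℂ := w / (‖w‖ : ℂ)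

/-- the moment-space part of the inverse -/
noncomputable def iX (N : Matrix (Fin n) (Fin n) ℝ) (c : Fin n → ℝ) (w : Cn n) (k : Fin n) : ℝ :=
  ∑ j, N k j * (mom w j - c j)

noncomputable def iu (M : Matrix (Fin n) (Fin n) ℤ) (w : Cn n) (k : Fin n) : ℂ :=
  ∏ j, sgn (w j) ^ (M j k)

noncomputable def iY (M : Matrix (Fin n) (Fin n) ℤ) (w : Cn n) (k : Fin n) : ℝ :=
  (iu M w k).arg / (2 * Real.pi)

/-- the domain of the inverse -/
def iW (M : Matrix (Fin n) (Fin n) ℤ) (N : Matrix (Fin n) (Fin n) ℝ) (c : Fin n → ℝ) :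
    Set (Cn n) :=
  {w | (∀ j, w j ≠ 0) ∧ (∀ k, 0 < iX N c w k) ∧ ∀ k, iu M w k ∈ Complex.slitPlane}

noncomputable def Inv (g : ℝ × ℝ → ℝ × ℝ) (M : Matrix (Fin n) (Fin n) ℤ)
    (N : Matrix (Fin n) (Fin n) ℝ) (c : Fin n → ℝ) (w : Cn n) : Cn n :=
  WithLp.toLp 2 fun k => (⟨(g (iX N c w k, iY M w k)).1, (g (iX N c w k, iY M w k)).2⟩ : ℂ)

theorem Inv_cont {g : ℝ × ℝ → ℝ × ℝ}
    (hg : ContinuousOn g (Ioi (0 : ℝ) ×ˢ Ioo (-(1 / 2) : ℝ) (1 / 2)))
    (M : Matrix (Fin n) (Fin n) ℤ) (N : Matrix (Fin n) (Fin n) ℝ) (c : Fin n → ℝ) :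
    ContinuousOn (Inv g M N c) (iW M N c) := by
  have hX : ∀ k, Continuous fun w : Cn n => iX N c w k := by
    intro k
    unfold iX mom
    fun_prop
  have hu : ∀ k, ContinuousOn (fun w : Cn n => iu M w k) (iW M N c) := by
    intro k
    unfold iu
    refine continuousOn_finsetProd _ fun j _ => ?_
    have h1 : ContinuousOn (fun w : Cn n => sgn (w j)) (iW M N c) := by
      unfold sgn
      refine ContinuousOn.div (by fun_prop) (by fun_prop) fun w hw => ?_
      simpa using hw.1 j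
    refine h1.zpow₀ _ fun w hw => Or.inl ?_
    have := hw.1 j
    simp [sgn, this]
  have hY : ∀ k, ContinuousOn (fun w : Cn n => iY M w k) (iW M N c) := by
    intro k
    unfold iY
    refine ContinuousOn.div_const ?_ _
    intro w hw
    exact ContinuousAt.comp_continuousWithinAt (f := fun w : Cn n => iu M w k)
      (Complex.continuousAt_arg (hw.2.2 k)) (hu k w hw)
  have hmem : ∀ k, MapsTo (fun w : Cn n => (iX N c w k, iY M w k)) (iW M N c)
      (Ioi (0 : ℝ) ×ˢ Ioo (-(1 / 2) : ℝ) (1 / 2)) := by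
    intro k w hw
    refine ⟨hw.2.1 k, ?_⟩
    have h1 := Complex.mem_slitPlane_iff_arg.1 (hw.2.2 k)
    have h2 := Complex.neg_pi_lt_arg (iu M w k)
    have h3 : (iu M w k).arg < Real.pi := lt_of_le_of_ne (Complex.arg_le_pi _) h1.1
    have hpi := Real.pi_pos
    simp only [iY]
    constructor
    · rw [lt_div_iff₀ (by positivity)]; linarith
    · rw [div_lt_iff₀ (by positivity)]; linarith
  have hgk : ∀ k, ContinuousOn (fun w : Cn n => g (iX N c w k, iY M w k)) (iW M N c) := fun k =>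
    hg.comp ((hX k).continuousOn.prodMk (hY k)) (hmem k)
  have h5 : ∀ k, ContinuousOn (fun w : Cn n =>
      (⟨(g (iX N c w k, iY M w k)).1, (g (iX N c w k, iY M w k)).2⟩ : ℂ)) (iW M N c) := by
    intro k
    have e : (fun w : Cn n =>
        (⟨(g (iX N c w k, iY M w k)).1, (g (iX N c w k, iY M w k)).2⟩ : ℂ)) =
        fun w : Cn n => Complex.equivRealProdCLM.symm (g (iX N c w k, iY M w k)) := by
      funext w
      apply Complex.ext <;> simp
    rw [e]
    exact Complex.equivRealProdCLM.symm.continuous.comp_continuousOn (hgk k)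
  exact (PiLp.continuous_toLp 2 _).comp_continuousOn (continuousOn_pi.2 h5)

theorem pol_ne {x : ℝ} (hx : 0 < x) (y : ℝ) : pol x y ≠ 0 := by
  intro h
  have h1 := pol_norm hx.le y
  rw [h] at h1
  simp at h1
  linarith

theorem pol_sgn {x : ℝ} (hx : 0 < x) (y : ℝ) :
    sgn (pol x y) = Complex.exp ((2 * Real.pi * y : ℝ) * Complex.I) := by
  have h0 : (0 : ℝ) < √(x / Real.pi) := Real.sqrt_pos.2 (div_pos hx Real.pi_pos)
  have h1 : ‖pol x y‖ = √(x / Real.pi) := by
    unfold pol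
    have : (2 * Real.pi * y * Complex.I : ℂ) = ((2 * Real.pi * y : ℝ) : ℂ) * Complex.I := by
      push_cast; ring
    rw [norm_mul, this, Complex.norm_exp_ofReal_mul_I, mul_one]
    simp [abs_of_pos h0]
  unfold sgn
  rw [h1]
  unfold pol
  have h2 : (√(x / Real.pi) : ℂ) ≠ 0 := by exact_mod_cast h0.ne'
  field_simp
  congr 1
  push_cast
  ring

theorem Inv_Phi {b : ℝ} (hb : 0 < b) {g : ℝ × ℝ → ℝ × ℝ}
    (hg : ∀ p q : ℝ, g (dX b p q, dY b p q) = (p, q))
    (M : Matrix (Fin n) (Fin n) ℤ) (N : Matrix (Fin n) (Fin n) ℝ) (c : Fin n → ℝ)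
    (hNM : N * M.map (Int.cast : ℤ → ℝ) = 1)
    {z : Cn n} (hpos : ∀ j, 0 < XX b (M.map (Int.cast : ℤ → ℝ)) c z j) :
    Inv g M N c (Phi b (M.map (Int.cast : ℤ → ℝ)) N c z) = z ∧
      Phi b (M.map (Int.cast : ℤ → ℝ)) N c z ∈ iW M N c := by
  have hN : ∀ k l, ∑ j, N k j * (M j l : ℝ) = if k = l then 1 else 0 := by
    intro k l
    rw [← Matrix.one_apply, ← hNM, Matrix.mul_apply]
    rfl
  set w := Phi b (M.map (Int.cast : ℤ → ℝ)) N c z with hw
  have hwj : ∀ j, w j = pol (XX b (M.map (Int.cast : ℤ → ℝ)) c z j) (YY b N z j) := fun j => rfl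
  have hX : ∀ k, iX N c w k = tX b (z k) := by
    intro k
    unfold iX mom
    have e1 : ∀ j, N k j * (Real.pi * ‖w j‖ ^ 2 - c j) =
        ∑ l, (N k j * (M j l : ℝ)) * tX b (z l) := by
      intro j
      rw [hwj, pol_norm (hpos j).le, XX, add_sub_cancel_right, Finset.mul_sum]
      refine Finset.sum_congr rfl fun l _ => ?_
      simp only [Matrix.map_apply]
      ring
    simp only [e1]
    rw [Finset.sum_comm]
    simp only [← Finset.sum_mul, hN]
    simp
  have hu : ∀ k, iu M w k = Complex.exp ((2 * Real.pi * tY b (z k) : ℝ) * Complex.I) := by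
    intro k
    unfold iu
    have e1 : ∀ j, sgn (w j) ^ (M j k) =
        Complex.exp ((M j k : ℤ) * (((2 * Real.pi * YY b N z j : ℝ) : ℂ) * Complex.I)) := by
      intro j
      rw [hwj, pol_sgn (hpos j), Complex.exp_int_mul]
    simp only [e1]
    rw [← Complex.exp_sum]
    congr 1
    have e2 : (∑ j, (M j k : ℝ) * YY b N z j) = tY b (z k) := by
      unfold YY
      have e3 : ∀ j, (M j k : ℝ) * ∑ l, N l j * tY b (z l) =
          ∑ l, (N l j * (M j k : ℝ)) * tY b (z l) := by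
        intro j
        rw [Finset.mul_sum]
        exact Finset.sum_congr rfl fun l _ => by ring
      simp only [e3]
      rw [Finset.sum_comm]
      simp only [← Finset.sum_mul, hN]
      simp
    rw [← e2]
    push_cast
    rw [Finset.mul_sum, Finset.sum_mul]
    exact Finset.sum_congr rfl fun j _ => by ring
  have hpi := Real.pi_pos
  have harg : ∀ k, (iu M w k).arg = 2 * Real.pi * tY b (z k) := by
    intro k
    have := dY_mem hb (z k).re (z k).im
    rw [hu k, Complex.arg_exp_mul_I, toIocMod_eq_self]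
    have h1 : tY b (z k) = dY b (z k).re (z k).im := rfl
    rw [h1]
    constructor
    · nlinarith [this.1]
    · nlinarith [this.2]
  have hY : ∀ k, iY M w k = tY b (z k) := by
    intro k
    unfold iY
    rw [harg]
    field_simp
  refine ⟨?_, ?_, ?_, ?_⟩
  · ext k
    have h1 : (Inv g M N c w) k =
      (⟨(g (iX N c w k, iY M w k)).1, (g (iX N c w k, iY M w k)).2⟩ : ℂ) := rfl
    rw [h1, hX, hY]
    have h2 : g (tX b (z k), tY b (z k)) = ((z k).re, (z k).im) := hg _ _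
    rw [h2]
  · intro j
    rw [hwj]
    exact pol_ne (hpos j) _
  · intro k
    rw [hX]
    exact dX_pos hb _ _
  · intro k
    rw [Complex.mem_slitPlane_iff_arg]
    have := dY_mem hb (z k).re (z k).im
    have h1 : tY b (z k) = dY b (z k).re (z k).im := rfl
    refine ⟨?_, ?_⟩
    · rw [harg k, h1]
      nlinarith [this.2]
    · rw [hu k]
      exact Complex.exp_ne_zero _

/-! ### main statements -/

theorem toric_one {a s R : ℝ} (has : a < s) (M : Matrix (Fin n) (Fin n) ℤ) (hM : IsUnit M.det)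
    (c : Fin n → ℝ) (hin : cpy s M c ⊆ Sx n R) :
    ∃ (U : Set (Cn n)) (φ : Cn n → Cn n), IsSympEmb U φ a ∧ ∀ z ∈ U, mom (φ z) ∈ cpy s M c := by
  set Mr : Matrix (Fin n) (Fin n) ℝ := M.map (Int.cast : ℤ → ℝ) with hMr
  set Nr : Matrix (Fin n) (Fin n) ℝ := (M⁻¹).map (Int.cast : ℤ → ℝ) with hNr
  have hNM : Nr * Mr = 1 := by
    have h1 : M⁻¹ * M = 1 := Matrix.nonsing_inv_mul M hM
    have h2 := congrArg (fun A : Matrix (Fin n) (Fin n) ℤ => A.map (Int.castRingHom ℝ)) h1
    simp only [Matrix.map_mul, Matrix.map_one _ (map_zero _) (map_one _)] at h2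
    exact h2
  have hpi := Real.pi_pos
  set b : ℝ := (s - a) / (2 * Real.pi * (n + 1)) with hbdef
  have hn1 : (0 : ℝ) < n + 1 := by positivity
  have hb : 0 < b := div_pos (by linarith) (by positivity)
  have hab : a + n * (Real.pi * b) < s := by
    have h1 : n * (Real.pi * b) = (s - a) / 2 * (n / (n + 1)) := by
      rw [hbdef]; field_simp
    have h2 : (n : ℝ) / (n + 1) ≤ 1 := by
      rw [div_le_one hn1]; linarith
    have h3 : (0 : ℝ) ≤ n / (n + 1) := by positivity
    rw [h1]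
    nlinarith
  obtain ⟨g, hgc, hg⟩ := d_inv hb
  set U : Set (Cn n) := {z | Real.pi * ∑ j, ‖z j‖ ^ 2 < s - n * (Real.pi * b)} with hU
  have hUo : IsOpen U := by
    refine isOpen_lt ?_ continuous_const
    fun_prop
  have hXS : ∀ z ∈ U, (fun k => tX b (z k)) ∈ Sx n s := by
    intro z hz
    refine ⟨fun k => dX_pos hb _ _, ?_⟩
    have h1 : ∀ k, tX b (z k) ≤ Real.pi * ‖z k‖ ^ 2 + Real.pi * b := by
      intro k
      have h2 := dX_lt hb (z k).re (z k).im
      have h3 : ‖z k‖ ^ 2 = (z k).re ^ 2 + (z k).im ^ 2 := by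
        rw [Complex.sq_norm, Complex.normSq_apply]; ring
      rw [h3]
      exact h2.le
    have h4 : ∑ k, tX b (z k) ≤ ∑ k, (Real.pi * ‖z k‖ ^ 2 + Real.pi * b) :=
      Finset.sum_le_sum fun k _ => h1 k
    rw [Finset.sum_add_distrib, ← Finset.mul_sum] at h4
    simp only [Finset.sum_const, Finset.card_univ, Fintype.card_fin, nsmul_eq_mul] at h4
    have h5 : Real.pi * ∑ j, ‖z j‖ ^ 2 < s - n * (Real.pi * b) := hz
    linarith
  have hXX : ∀ z, (fun j => XX b Mr c z j) = Mr.mulVec (fun k => tX b (z k)) + c := by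
    intro z
    funext j
    simp [XX, Matrix.mulVec, dotProduct]
  have hcpy : ∀ z ∈ U, (fun j => XX b Mr c z j) ∈ cpy s M c := by
    intro z hz
    rw [hXX]
    exact ⟨_, hXS z hz, rfl⟩
  have hpos : ∀ z ∈ U, ∀ j, 0 < XX b Mr c z j := fun z hz j => (hin (hcpy z hz)).1 j
  have hmom : ∀ z ∈ U, mom (Phi b Mr Nr c z) = fun j => XX b Mr c z j := by
    intro z hz
    funext j
    exact pol_norm (hpos z hz j).le _
  refine ⟨U, Phi b Mr Nr c, ⟨hUo, ?_, Phi_smooth hb Mr Nr c hpos, ?_, ?_⟩, ?_⟩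
  · intro z hz
    have h5 : Real.pi * ∑ j, ‖z j‖ ^ 2 ≤ a := hz
    have : Real.pi * ∑ j, ‖z j‖ ^ 2 < s - n * (Real.pi * b) := by linarith
    exact this
  · -- embedding
    have hcont : Continuous (U.domRestrict (Phi b Mr Nr c)) :=
      continuousOn_iff_continuous_domRestrict.1 (Phi_smooth hb Mr Nr c hpos).continuousOn
    have hInv : ∀ z ∈ U, _ := fun z hz => Inv_Phi hb hg M Nr c hNM (hpos z hz)
    let f' : U → iW M Nr c := fun z => ⟨Phi b Mr Nr c z, (hInv z z.2).2⟩
    have hf' : Continuous f' := hcont.subtype_mk _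
    have hg' : Continuous ((iW M Nr c).domRestrict (Inv g M Nr c)) :=
      continuousOn_iff_continuous_domRestrict.1 (Inv_cont hgc M Nr c)
    have hcomp : ((iW M Nr c).domRestrict (Inv g M Nr c)) ∘ f' = Subtype.val := by
      funext z
      exact (hInv z z.2).1
    have h1 : IsEmbedding f' := by
      refine IsEmbedding.of_comp hf' hg' ?_
      rw [hcomp]
      exact IsEmbedding.subtypeVal
    exact IsEmbedding.subtypeVal.comp h1
  · intro z hz v w
    exact Phi_symp hb Mr Nr c hNM (hpos z hz) v w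
  · intro z hz
    rw [hmom z hz]
    exact hcpy z hz

theorem toric {ι : Type} {R : ℝ} {a s : ι → ℝ} (has : ∀ i, a i < s i)
    (M : ι → Matrix (Fin n) (Fin n) ℤ) (hM : ∀ i, IsUnit (M i).det) (c : ι → Fin n → ℝ)
    (hin : ∀ i, cpy (s i) (M i) (c i) ⊆ Sx n R)
    (hdis : ∀ i j, i ≠ j → Disjoint (cpy (s i) (M i) (c i)) (cpy (s j) (M j) (c j))) :
    Packs n R a := by
  choose U φ hφ hmom using fun i => toric_one (has i) (M i) (hM i) (c i) (hin i)
  refine ⟨U, φ, hφ, ?_, ?_⟩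
  · intro i w hw
    obtain ⟨z, hz, rfl⟩ := hw
    have h1 := hin i (hmom i z ((hφ i).subset hz))
    have hopen : IsOpen {w : Cn n | Real.pi * ∑ j, ‖w j‖ ^ 2 < R} := by
      refine isOpen_lt ?_ continuous_const
      fun_prop
    have hsub : {w : Cn n | Real.pi * ∑ j, ‖w j‖ ^ 2 < R} ⊆ B n R := by
      intro w hw
      have h : Real.pi * ∑ j, ‖w j‖ ^ 2 < R := hw
      have h' : Real.pi * ∑ j, ‖w j‖ ^ 2 ≤ R := h.le
      exact h'
    refine interior_maximal hsub hopen ?_
    have h2 := h1.2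
    simp only [mom] at h2
    rw [← Finset.mul_sum] at h2
    exact h2
  · intro i j hij
    rw [Set.disjoint_left]
    rintro w ⟨z, hz, rfl⟩ ⟨z', hz', h⟩
    have h1 := hmom i z ((hφ i).subset hz)
    have h2 := hmom j z' ((hφ j).subset hz')
    rw [h] at h2
    exact Set.disjoint_left.1 (hdis i j hij) h1 h2

end P209
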