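import Vale.Agent.P209.Kraft
import Vale.Agent.P209.Toric

/-!
# P209: a coarse form of Conjecture A for all numbers of balls

`a 0` is the largest ball. If `a 0 ≥ R/2`: `t` slightly smaller than `R - a 0`,
`m = ⌊R/(R - a 0)⌋ ≥ 2`, slab of `m^n-(m-1)^n` alcoves of size `t`, round the other `a i` up to
`t 2^{-l_i}`, `(2/3)^n ((m+1)^n - m^n) ≤ m^n - (m-1)^n`. If `a 0 < R/2`: `2^n` alcoves of size
`R/2`, all balls rounded up (`(4/3)^n ≤ 2^n - 1` for `n ≥ 2`, one cell is kept for `a 0`).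
-/

open Set Topology
open scoped ContDiff

namespace P209

variable {n : ℕ}

namespace Fin1

/-- rounding up to a dyadic fraction of `t` -/
theorem round_up {a t : ℝ} (ha : 0 < a) (hat : a < t) :
    ∃ l : ℕ, a < t / 2 ^ l ∧ t / 2 ^ l ≤ 2 * a := by
  have hex : ∃ l : ℕ, t / 2 ^ l ≤ 2 * a := by
    obtain ⟨l, hl⟩ := pow_unbounded_of_one_lt (t / (2 * a)) (one_lt_two)
    refine ⟨l, ?_⟩
    rw [div_lt_iff₀ (by positivity)] at hl
    rw [div_le_iff₀ (by positivity)]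
    nlinarith
  classical
  refine ⟨Nat.find hex, ?_, Nat.find_spec hex⟩
  rcases Nat.eq_zero_or_pos (Nat.find hex) with h | h
  · rw [h]; simpa using hat
  · obtain ⟨j, hj⟩ : ∃ j, Nat.find hex = j + 1 := ⟨Nat.find hex - 1, by omega⟩
    have h2 := Nat.find_min hex (m := j) (by omega)
    rw [hj]
    push Not at h2
    rw [pow_succ, ← div_div]
    linarith

/-- translation of a copy -/
theorem mem_cpy_add {t : ℝ} {M : Matrix (Fin n) (Fin n) ℤ} {c v x : Fin n → ℝ} :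
    x ∈ cpy t M (c + v) ↔ x - v ∈ cpy t M c := by
  unfold cpy
  constructor
  · rintro ⟨y, hy, rfl⟩
    exact ⟨y, hy, by simp only; abel⟩
  · rintro ⟨y, hy, h⟩
    refine ⟨y, hy, ?_⟩
    simp only at h ⊢
    rw [← add_assoc, h]
    abel

/-- the identity copy -/
theorem cpy_one (t : ℝ) : cpy t (1 : Matrix (Fin n) (Fin n) ℤ) 0 = Sx n t := by
  unfold cpy
  have : (1 : Matrix (Fin n) (Fin n) ℤ).map (Int.cast : ℤ → ℝ) = 1 := by
    exact Matrix.map_one _ (by simp) (by simp)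
  rw [this]
  simp

/-- the number of outer cells -/
theorem card_outer (n m : ℕ) : Nat.card {g : Fin n → Fin m // ∃ i, (g i : ℕ) + 1 = m} +
    (m - 1) ^ n = m ^ n := by
  classical
  rw [Nat.card_eq_fintype_card]
  have h1 := Fintype.card_subtype_compl (fun g : Fin n → Fin m => ∃ i, (g i : ℕ) + 1 = m)
  have h2 : Fintype.card (Fin n → Fin m) = m ^ n := by simp
  have h3 : Fintype.card {g : Fin n → Fin m // ¬ ∃ i, (g i : ℕ) + 1 = m} = (m - 1) ^ n := by
    have e : {g : Fin n → Fin m // ¬ ∃ i, (g i : ℕ) + 1 = m} ≃ (Fin n → Fin (m - 1)) :=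
      { toFun := fun g i => ⟨g.1 i, by
          have := (g.1 i).2
          have h := not_exists.mp g.2 i
          omega⟩
        invFun := fun g => ⟨fun i => ⟨g i, by have := (g i).2; omega⟩, by
          rintro ⟨i, hi⟩
          have := (g i).2
          simp only at hi
          omega⟩
        left_inv := fun g => by ext; rfl
        right_inv := fun g => by ext; rfl }
    rw [Fintype.card_congr e]
    simp
  have h4 := Fintype.card_subtype_le (fun g : Fin n → Fin m => ∃ i, (g i : ℕ) + 1 = m)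
  omega

/-- `x^n - (x-1)^n` grows at most by `(3/2)^n` in a unit step from an integer `≥ 2` -/
theorem step_ratio (n : ℕ) {m : ℕ} (hm : 2 ≤ m) :
    2 ^ n * (((m : ℝ) + 1) ^ n - (m : ℝ) ^ n) ≤ 3 ^ n * ((m : ℝ) ^ n - ((m : ℝ) - 1) ^ n) := by
  rcases Nat.lt_or_ge m 4 with h4 | h4
  · -- `m = 2, 3`
    have h1 : (2 * ((m : ℝ) + 1)) ^ n ≤ (3 * (m : ℝ)) ^ n := by
      apply pow_le_pow_left₀ (by positivity)
      have : (2 : ℝ) ≤ m := by exact_mod_cast hm
      linarith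
    have h2 : (3 * ((m : ℝ) - 1)) ^ n ≤ (2 * (m : ℝ)) ^ n := by
      have h5 : (2 : ℝ) ≤ m := by exact_mod_cast hm
      have h6 : (m : ℝ) ≤ 3 := by exact_mod_cast (by omega : m ≤ 3)
      apply pow_le_pow_left₀ (by linarith)
      linarith
    rw [mul_pow, mul_pow] at h1 h2
    linarith
  · have h5 : (4 : ℝ) ≤ m := by exact_mod_cast h4
    have e1 := (Commute.all ((m : ℝ) + 1) (m : ℝ)).geom_sum₂_mul n
    have e2 := (Commute.all (m : ℝ) ((m : ℝ) - 1)).geom_sum₂_mul n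
    have e3 : (m : ℝ) + 1 - m = 1 := by ring
    have e4 : (m : ℝ) - (m - 1) = 1 := by ring
    rw [e3, mul_one] at e1
    rw [e4, mul_one] at e2
    rw [← e1, ← e2, Finset.mul_sum, Finset.mul_sum]
    apply Finset.sum_le_sum
    intro i hi
    rw [Finset.mem_range] at hi
    have h6 : (2 * ((m : ℝ) + 1)) ^ i ≤ (3 * (m : ℝ)) ^ i :=
      pow_le_pow_left₀ (by positivity) (by linarith) i
    have h7 : (2 * (m : ℝ)) ^ (n - 1 - i) ≤ (3 * ((m : ℝ) - 1)) ^ (n - 1 - i) :=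
      pow_le_pow_left₀ (by positivity) (by linarith) _
    have h8 := mul_le_mul h6 h7 (by positivity) (by positivity)
    have e5 : ∀ a x y : ℝ, (a * x) ^ i * (a * y) ^ (n - 1 - i) =
        a ^ (n - 1) * (x ^ i * y ^ (n - 1 - i)) := by
      intro a x y
      have : n - 1 = i + (n - 1 - i) := by omega
      rw [mul_pow, mul_pow]
      conv_rhs => rw [this, pow_add]
      ring_nf
      congr 2
      omega
    rw [e5, e5] at h8
    have h9 : (2 : ℝ) ^ n = 2 ^ (n - 1) * 2 := by rw [← pow_succ]; congr 1; omega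
    have h10 : (3 : ℝ) ^ n = 3 ^ (n - 1) * 3 := by rw [← pow_succ]; congr 1; omega
    rw [h9, h10]
    have h11 : (0 : ℝ) ≤ 3 ^ (n - 1) * ((m : ℝ) ^ i * ((m : ℝ) - 1) ^ (n - 1 - i)) := by
      have : (0 : ℝ) ≤ (m : ℝ) - 1 := by linarith
      positivity
    nlinarith

/-- the sum of the dyadic weights is controlled by the volume -/
theorem sum_weights {k : ℕ} {t : ℝ} (ht : 0 < t) (l : Fin k → ℕ) (a : Fin k → ℝ)
    (hl : ∀ i, t / 2 ^ l i ≤ 2 * a i) :
    t ^ n * ∑ i, (((2 : ℝ) ^ n) ^ l i)⁻¹ ≤ 2 ^ n * ∑ i, a i ^ n := by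
  rw [Finset.mul_sum, Finset.mul_sum]
  apply Finset.sum_le_sum
  intro i _
  have h1 : (t / 2 ^ l i) ^ n ≤ (2 * a i) ^ n :=
    pow_le_pow_left₀ (by positivity) (hl i) n
  rw [div_pow, mul_pow, ← pow_mul, mul_comm (l i) n, pow_mul, div_eq_mul_inv] at h1
  exact h1

theorem cast_weights {k N : ℕ} (l : Fin k → ℕ)
    (h : ∑ i, (((2 : ℝ) ^ n) ^ l i)⁻¹ ≤ N) : ∑ i, (((2 : ℚ) ^ n) ^ l i)⁻¹ ≤ N := by
  have h1 : ((∑ i, (((2 : ℚ) ^ n) ^ l i)⁻¹ : ℚ) : ℝ) ≤ ((N : ℚ) : ℝ) := by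
    push_cast
    exact h
  exact_mod_cast h1

/-- the outer layer of the simplex contains `m^n - (m-1)^n` disjoint copies of `Sx n t` -/
theorem outer (hn : 1 ≤ n) {m : ℕ} (hm : 1 ≤ m) {t R : ℝ} (ht : 0 < t) (hR : m * t ≤ R) :
    ∃ (N : ℕ) (M : Fin N → Matrix (Fin n) (Fin n) ℤ) (c : Fin N → Fin n → ℝ),
      N + (m - 1) ^ n = m ^ n ∧ (∀ i, IsUnit (M i).det) ∧
      (∀ i, cpy t (M i) (c i) ⊆ {x | x ∈ Sx n R ∧ R - t < ∑ i, x i}) ∧
      ∀ i j, i ≠ j → Disjoint (cpy t (M i) (c i)) (cpy t (M j) (c j)) := by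
  classical
  obtain ⟨M, c, h1, h2, h3, h4⟩ := alcoves n m hm ht
  have hcard := card_outer n m
  have e : Fin (Nat.card {g : Fin n → Fin m // ∃ i, (g i : ℕ) + 1 = m}) ≃
      {g : Fin n → Fin m // ∃ i, (g i : ℕ) + 1 = m} := (Finite.equivFin _).symm
  set v : Fin n → ℝ := Pi.single ⟨0, hn⟩ (R - m * t) with hv
  have hvn : ∀ i, 0 ≤ v i := by
    intro i
    rw [hv]
    by_cases h : i = ⟨0, hn⟩
    · rw [h, Pi.single_eq_same]; linarith
    · rw [Pi.single_eq_of_ne h]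
  have hvs : ∑ i, v i = R - m * t := by
    rw [hv]
    simp
  refine ⟨_, fun i => M (e i).1, fun i => c (e i).1 + v, hcard, fun i => h1 _, ?_, ?_⟩
  · intro i x hx
    rw [mem_cpy_add] at hx
    have h5 := h2 _ hx
    have h6 := h4 _ (e i).2 _ hx
    have h7 : ∑ j, (x - v) j = ∑ j, x j - (R - m * t) := by
      simp only [Pi.sub_apply, Finset.sum_sub_distrib, hvs]
    rw [h7] at h6
    refine ⟨⟨fun j => ?_, ?_⟩, ?_⟩
    · have := h5.1 j
      rw [Pi.sub_apply] at this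
      linarith [hvn j]
    · have := h5.2
      rw [h7] at this
      linarith
    · linarith
  · intro i j hij
    have h5 := h3 (e i).1 (e j).1 (fun h => hij (e.injective (Subtype.ext h)))
    rw [Set.disjoint_left] at h5 ⊢
    intro x hx hx2
    rw [mem_cpy_add] at hx hx2
    exact h5 hx hx2

/-- all the `m^n` cells -/
theorem all_cells (n m : ℕ) (hm : 1 ≤ m) {t R : ℝ} (ht : 0 < t) (hR : m * t ≤ R) :
    ∃ (N : ℕ) (M : Fin N → Matrix (Fin n) (Fin n) ℤ) (c : Fin N → Fin n → ℝ),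
      N = m ^ n ∧ (∀ i, IsUnit (M i).det) ∧ (∀ i, cpy t (M i) (c i) ⊆ Sx n R) ∧
      ∀ i j, i ≠ j → Disjoint (cpy t (M i) (c i)) (cpy t (M j) (c j)) := by
  classical
  obtain ⟨M, c, h1, h2, h3, -⟩ := alcoves n m hm ht
  have e : Fin (Nat.card (Fin n → Fin m)) ≃ (Fin n → Fin m) := (Finite.equivFin _).symm
  refine ⟨_, fun i => M (e i), fun i => c (e i), by simp [Nat.card_eq_fintype_card],
    fun i => h1 _, fun i x hx => ?_, ?_⟩
  · have := h2 _ hx
    exact ⟨this.1, this.2.trans_le hR⟩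
  · intro i j hij
    exact h3 _ _ (fun h => hij (e.injective h))

/-- the volume condition for a slightly smaller size of the cells -/
theorem choose_t (hn : 2 ≤ n) {R b T : ℝ} (hb : R / 2 ≤ b) (hbR : b < R) (hT : T < R - b) :
    ∃ (m : ℕ) (t : ℝ), 2 ≤ m ∧ T < t ∧ 0 < t ∧ t < R - b ∧ m * t ≤ R ∧
      2 ^ n * (R ^ n - b ^ n) ≤ 3 ^ n * (t ^ n * ((m : ℝ) ^ n - ((m : ℝ) - 1) ^ n)) := by
  set r := R - b with hr
  have hr0 : 0 < r := by rw [hr]; linarith
  have hR0 : 0 < R := by linarith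
  have hRr : 2 ≤ R / r := by
    rw [le_div_iff₀ hr0, hr]; linarith
  set m := ⌊R / r⌋₊ with hm
  have hm2 : 2 ≤ m := Nat.le_floor (by exact_mod_cast hRr)
  have hmr : (m : ℝ) * r ≤ R := by
    have := Nat.floor_le (a := R / r) (by positivity)
    rwa [le_div_iff₀ hr0] at this
  have hmr2 : R < ((m : ℝ) + 1) * r := by
    have := Nat.lt_floor_add_one (R / r)
    rwa [div_lt_iff₀ hr0] at this
  -- strict inequality at `r`
  have hstr : R ^ n - b ^ n < r ^ n * (((m : ℝ) + 1) ^ n - (m : ℝ) ^ n) := by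
    have e1 := (Commute.all R b).geom_sum₂_mul n
    have e2 := (Commute.all (((m : ℝ) + 1) * r) ((m : ℝ) * r)).geom_sum₂_mul n
    have e3 : ((m : ℝ) + 1) * r - (m : ℝ) * r = r := by ring
    rw [e3, mul_pow, mul_pow] at e2
    have e4 : r ^ n * (((m : ℝ) + 1) ^ n - (m : ℝ) ^ n) =
        ((m : ℝ) + 1) ^ n * r ^ n - (m : ℝ) ^ n * r ^ n := by ring
    rw [e4, ← e1, ← e2, ← hr]
    apply mul_lt_mul_of_pos_right _ hr0
    have hb0 : 0 < b := by linarith
    have hbm : b < (m : ℝ) * r := by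
      have : b = R - r := by rw [hr]; ring
      rw [this]; linarith
    apply Finset.sum_lt_sum
    · intro i _
      apply mul_le_mul (pow_le_pow_left₀ hR0.le hmr2.le _) (pow_le_pow_left₀ hb0.le hbm.le _)
        (by positivity) (by positivity)
    · refine ⟨1, Finset.mem_range.mpr (by omega), ?_⟩
      rw [pow_one, pow_one]
      have h6 : b ^ (n - 1 - 1) ≤ ((m : ℝ) * r) ^ (n - 1 - 1) := pow_le_pow_left₀ hb0.le hbm.le _
      have h7 : 0 < ((m : ℝ) * r) ^ (n - 1 - 1) := by positivity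
      calc R * b ^ (n - 1 - 1) ≤ R * ((m : ℝ) * r) ^ (n - 1 - 1) :=
            mul_le_mul_of_nonneg_left h6 hR0.le
        _ < ((m : ℝ) + 1) * r * ((m : ℝ) * r) ^ (n - 1 - 1) := mul_lt_mul_of_pos_right hmr2 h7
  have hlim : 2 ^ n * (R ^ n - b ^ n) <
      3 ^ n * (r ^ n * ((m : ℝ) ^ n - ((m : ℝ) - 1) ^ n)) := by
    have h1 := step_ratio n hm2
    have h2 : 2 ^ n * (R ^ n - b ^ n) < 2 ^ n * (r ^ n * (((m : ℝ) + 1) ^ n - (m : ℝ) ^ n)) :=
      mul_lt_mul_of_pos_left hstr (by positivity)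
    have h3 : r ^ n * (2 ^ n * (((m : ℝ) + 1) ^ n - (m : ℝ) ^ n)) ≤
        r ^ n * (3 ^ n * ((m : ℝ) ^ n - ((m : ℝ) - 1) ^ n)) :=
      mul_le_mul_of_nonneg_left h1 (by positivity)
    nlinarith
  have hc : ContinuousAt (fun t : ℝ => 3 ^ n * (t ^ n * ((m : ℝ) ^ n - ((m : ℝ) - 1) ^ n))) r := by
    fun_prop
  have hev : ∀ᶠ t in 𝓝 r, 2 ^ n * (R ^ n - b ^ n) <
      3 ^ n * (t ^ n * ((m : ℝ) ^ n - ((m : ℝ) - 1) ^ n)) := hc.eventually_const_lt hlim
  have hev2 : ∀ᶠ t in 𝓝 r, max T 0 < t := eventually_gt_nhds (max_lt hT hr0)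
  obtain ⟨ε, hε, hball⟩ := Metric.eventually_nhds_iff.mp (hev.and hev2)
  have h5 := hball (y := r - ε / 2) (by
    rw [Real.dist_eq]
    have : r - ε / 2 - r = -(ε / 2) := by ring
    rw [this, abs_neg, abs_of_pos (by positivity)]
    linarith)
  refine ⟨m, r - ε / 2, hm2, (le_max_left _ _).trans_lt h5.2, (le_max_right _ _).trans_lt h5.2,
    by linarith, ?_, h5.1.le⟩
  have : (0 : ℝ) ≤ m := by positivity
  nlinarith

theorem four_thirds {n : ℕ} (hn : 2 ≤ n) : (4 : ℝ) ^ n + 3 ^ n ≤ 3 ^ n * 2 ^ n := by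
  induction n, hn using Nat.le_induction with
  | base => norm_num
  | succ n hn ih =>
    have h1 : (0 : ℝ) < 3 ^ n := by positivity
    have h2 : (4 : ℝ) ≤ 2 ^ n := by
      calc (4 : ℝ) = 2 ^ 2 := by norm_num
        _ ≤ 2 ^ n := pow_le_pow_right₀ (by norm_num) hn
    rw [pow_succ, pow_succ, pow_succ]
    nlinarith [mul_le_mul_of_nonneg_left h2 h1.le]

/-- the case of a big ball -/
theorem big {k : ℕ} (hn : 2 ≤ n) {R : ℝ} {a : Fin (k + 1) → ℝ} (ha : ∀ i, 0 < a i)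
    (h0 : a 0 < R) (hb : R / 2 ≤ a 0) (h2 : ∀ i, i ≠ 0 → a 0 + a i < R)
    (hvol : 3 ^ n * ∑ i ∈ Finset.univ.erase 0, a i ^ n ≤ R ^ n - a 0 ^ n) :
    Packs n R a := by
  classical
  have hR0 : 0 < R := (ha 0).trans h0
  -- the sizes of the small balls
  obtain ⟨T, hT, hTa⟩ : ∃ T : ℝ, T < R - a 0 ∧ ∀ i : Fin k, a i.succ ≤ T := by
    rcases Nat.eq_zero_or_pos k with hk | hk
    · subst hk
      exact ⟨R - a 0 - 1, by linarith, fun i => i.elim0⟩
    · have : Nonempty (Fin k) := ⟨⟨0, hk⟩⟩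
      obtain ⟨j, hj⟩ := Finite.exists_max fun i : Fin k => a i.succ
      refine ⟨a j.succ, ?_, hj⟩
      have := h2 j.succ (Fin.succ_ne_zero j)
      linarith
  obtain ⟨m, t, hm, hTt, ht, htr, hmt, hv⟩ := choose_t hn hb h0 hT
  obtain ⟨N, M, c, hN, hM, hin, hdis⟩ := outer (n := n) (by omega) (by omega) ht hmt
  choose l hl1 hl2 using fun i : Fin k => round_up (ha i.succ) ((hTa i).trans_lt hTt)
  have hsum : ∑ i, (((2 : ℝ) ^ n) ^ l i)⁻¹ ≤ N := by
    have h3 := sum_weights (n := n) ht l (fun i => a i.succ) hl2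
    have h4 : ∑ i ∈ Finset.univ.erase 0, a i ^ n = ∑ i : Fin k, a i.succ ^ n := by
      have h5 := Fin.sum_univ_succ fun i : Fin (k + 1) => a i ^ n
      have h6 := Finset.add_sum_erase (Finset.univ : Finset (Fin (k + 1))) (fun i => a i ^ n)
        (Finset.mem_univ 0)
      linarith
    rw [h4] at hvol
    have h7 : (N : ℝ) = (m : ℝ) ^ n - ((m : ℝ) - 1) ^ n := by
      have h8 : ((N + (m - 1) ^ n : ℕ) : ℝ) = ((m ^ n : ℕ) : ℝ) := by rw [hN]
      push_cast [Nat.cast_sub (by omega : 1 ≤ m)] at h8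
      linarith
    rw [h7]
    have h9 : 3 ^ n * (t ^ n * ∑ i, (((2 : ℝ) ^ n) ^ l i)⁻¹) ≤
        3 ^ n * (t ^ n * ((m : ℝ) ^ n - ((m : ℝ) - 1) ^ n)) := by
      calc 3 ^ n * (t ^ n * ∑ i, (((2 : ℝ) ^ n) ^ l i)⁻¹) ≤
          3 ^ n * (2 ^ n * ∑ i : Fin k, a i.succ ^ n) :=
            mul_le_mul_of_nonneg_left h3 (by positivity)
        _ = 2 ^ n * (3 ^ n * ∑ i : Fin k, a i.succ ^ n) := by ring
        _ ≤ 2 ^ n * (R ^ n - a 0 ^ n) := mul_le_mul_of_nonneg_left hvol (by positivity)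
        _ ≤ _ := hv
    have h10 : (0 : ℝ) < 3 ^ n * t ^ n := by positivity
    rw [← mul_assoc, ← mul_assoc] at h9
    exact le_of_mul_le_mul_left h9 h10
  obtain ⟨M', c', hM', hin', hdis'⟩ := kraft {x | x ∈ Sx n R ∧ R - t < ∑ i, x i} ht M c hM hin
    hdis l (cast_weights l hsum)
  refine toric (s := Fin.cons (R - t) fun i => t / 2 ^ l i) ?_ (Fin.cons 1 M') ?_
    (Fin.cons 0 c') ?_ ?_
  · intro i
    refine Fin.cases ?_ (fun i => ?_) i
    · simp only [Fin.cons_zero]; linarith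
    · simp only [Fin.cons_succ]; exact hl1 i
  · intro i
    refine Fin.cases ?_ (fun i => ?_) i
    · simp only [Fin.cons_zero, Matrix.det_one]; exact isUnit_one
    · simp only [Fin.cons_succ]; exact hM' i
  · intro i
    refine Fin.cases ?_ (fun i => ?_) i
    · simp only [Fin.cons_zero, cpy_one]
      exact fun x hx => ⟨hx.1, by linarith [hx.2]⟩
    · simp only [Fin.cons_succ]
      exact (hin' i).trans fun x hx => hx.1
  · have key : ∀ i : Fin k, Disjoint (Sx n (R - t)) (cpy (t / 2 ^ l i) (M' i) (c' i)) := by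
      intro i
      rw [Set.disjoint_left]
      intro x hx hx2
      have h11 := (hin' i hx2).2
      have h12 := hx.2
      linarith
    intro i j
    refine Fin.cases ?_ (fun i => ?_) i <;> refine Fin.cases ?_ (fun j => ?_) j
    · exact fun h => absurd rfl h
    · intro _
      simp only [Fin.cons_zero, Fin.cons_succ, cpy_one]
      exact key j
    · intro _
      simp only [Fin.cons_zero, Fin.cons_succ, cpy_one]
      exact (key i).symm
    · intro h
      simp only [Fin.cons_succ]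
      exact hdis' i j (fun h' => h (by rw [h']))

/-- the case without a big ball -/
theorem small {k : ℕ} (hn : 2 ≤ n) {R : ℝ} {a : Fin (k + 1) → ℝ} (ha : ∀ i, 0 < a i)
    (hmax : ∀ i, a i ≤ a 0) (hb : a 0 < R / 2)
    (hvol : 3 ^ n * ∑ i ∈ Finset.univ.erase 0, a i ^ n ≤ R ^ n - a 0 ^ n) :
    Packs n R a := by
  classical
  have hR0 : 0 < R := by have := ha 0; linarith
  have ht : 0 < R / 2 := by positivity
  obtain ⟨N, M, c, hN, hM, hin, hdis⟩ := all_cells n 2 (by norm_num) (R := R) ht (by norm_num; linarith)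
  choose l hl1 hl2 using fun i : Fin k => round_up (ha i.succ) ((hmax i.succ).trans_lt hb)
  set l' : Fin (k + 1) → ℕ := Fin.cons 0 l with hl'
  have hsum : ∑ i, (((2 : ℝ) ^ n) ^ l' i)⁻¹ ≤ N := by
    have h3 := sum_weights (n := n) ht l (fun i => a i.succ) hl2
    have h4 : ∑ i ∈ Finset.univ.erase 0, a i ^ n = ∑ i : Fin k, a i.succ ^ n := by
      have h5 := Fin.sum_univ_succ fun i : Fin (k + 1) => a i ^ n
      have h6 := Finset.add_sum_erase (Finset.univ : Finset (Fin (k + 1))) (fun i => a i ^ n)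
        (Finset.mem_univ 0)
      linarith
    rw [h4] at hvol
    rw [Fin.sum_univ_succ]
    simp only [hl', Fin.cons_zero, Fin.cons_succ, pow_zero, inv_one]
    have h7 : 3 ^ n * ∑ i : Fin k, a i.succ ^ n ≤ R ^ n := by
      have : 0 < a 0 ^ n := pow_pos (ha 0) n
      linarith
    have h8 : R ^ n = 2 ^ n * (R / 2) ^ n := by rw [← mul_pow]; congr 1; ring
    have h9 : 3 ^ n * ((R / 2) ^ n * ∑ i, (((2 : ℝ) ^ n) ^ l i)⁻¹) ≤
        2 ^ n * (2 ^ n * (R / 2) ^ n) := by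
      calc 3 ^ n * ((R / 2) ^ n * ∑ i, (((2 : ℝ) ^ n) ^ l i)⁻¹) ≤
          3 ^ n * (2 ^ n * ∑ i : Fin k, a i.succ ^ n) :=
            mul_le_mul_of_nonneg_left h3 (by positivity)
        _ = 2 ^ n * (3 ^ n * ∑ i : Fin k, a i.succ ^ n) := by ring
        _ ≤ 2 ^ n * (2 ^ n * (R / 2) ^ n) := by
            rw [← h8]; exact mul_le_mul_of_nonneg_left h7 (by positivity)
    have h10 : (0 : ℝ) < (R / 2) ^ n := by positivity
    have h11 : 3 ^ n * ∑ i, (((2 : ℝ) ^ n) ^ l i)⁻¹ ≤ 4 ^ n := by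
      have e1 : 3 ^ n * ((R / 2) ^ n * ∑ i, (((2 : ℝ) ^ n) ^ l i)⁻¹) =
          (R / 2) ^ n * (3 ^ n * ∑ i, (((2 : ℝ) ^ n) ^ l i)⁻¹) := by ring
      have e2 : (2 : ℝ) ^ n * (2 ^ n * (R / 2) ^ n) = (R / 2) ^ n * 4 ^ n := by
        have : (4 : ℝ) ^ n = 2 ^ n * 2 ^ n := by rw [← mul_pow]; norm_num
        rw [this]; ring
      rw [e1, e2] at h9
      exact le_of_mul_le_mul_left h9 h10
    have h12 := four_thirds hn
    rw [hN]
    push_cast
    have h13 : (0 : ℝ) < 3 ^ n := by positivity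
    have h14 : 3 ^ n * (1 + ∑ i, (((2 : ℝ) ^ n) ^ l i)⁻¹) ≤ 3 ^ n * 2 ^ n := by linarith
    exact le_of_mul_le_mul_left h14 h13
  obtain ⟨M', c', hM', hin', hdis'⟩ := kraft (Sx n R) ht M c hM hin hdis l' (cast_weights l' hsum)
  refine toric (s := fun i => R / 2 / 2 ^ l' i) ?_ M' hM' c' hin' hdis'
  intro i
  refine Fin.cases ?_ (fun i => ?_) i
  · simp only [hl', Fin.cons_zero, pow_zero, div_one]; exact hb
  · simp only [hl', Fin.cons_succ]; exact hl1 i

end Fin1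

theorem coarse {n k : ℕ} (hn : 2 ≤ n) {R : ℝ} {a : Fin (k + 1) → ℝ} (ha : ∀ i, 0 < a i)
    (hmax : ∀ i, a i ≤ a 0) (h0 : a 0 < R) (h2 : ∀ i, i ≠ 0 → a 0 + a i < R)
    (hvol : 3 ^ n * ∑ i ∈ Finset.univ.erase 0, a i ^ n ≤ R ^ n - a 0 ^ n) :
    Packs n R a := by
  rcases le_or_gt (R / 2) (a 0) with h | h
  · exact Fin1.big hn ha h0 h h2 hvol
  · exact Fin1.small hn ha hmax h hvol

end P209
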