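import Vale.Agent.P209.Defs

/-!
# P209: dyadic subdivision (from the statement of `alcoves` with `m = 2`)
-/

open Set Topology
open scoped ContDiff

namespace P209

namespace Kraft

variable {n : ℕ}

/-- the affine map of a unimodular copy -/
noncomputable def af (M : Matrix (Fin n) (Fin n) ℤ) (c : Fin n → ℝ) (x : Fin n → ℝ) : Fin n → ℝ :=
  (M.map (Int.cast : ℤ → ℝ)).mulVec x + c

theorem cpy_eq (a : ℝ) (M : Matrix (Fin n) (Fin n) ℤ) (c : Fin n → ℝ) :
    cpy a M c = af M c '' Sx n a := rfl

theorem af_comp (M M' : Matrix (Fin n) (Fin n) ℤ) (c c' : Fin n → ℝ) (x : Fin n → ℝ) :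
    af (M * M') (af M c c') x = af M c (af M' c' x) := by
  unfold af
  have h : (M * M').map (Int.cast : ℤ → ℝ) =
      M.map (Int.cast : ℤ → ℝ) * M'.map (Int.cast : ℤ → ℝ) := by
    have := Matrix.map_mul (L := M) (M := M') (f := Int.castRingHom ℝ)
    simpa using this
  rw [h, Matrix.mulVec_add, Matrix.mulVec_mulVec]
  abel

theorem cpy_comp (a : ℝ) (M M' : Matrix (Fin n) (Fin n) ℤ) (c c' : Fin n → ℝ) :
    cpy a (M * M') (af M c c') = af M c '' cpy a M' c' := by
  rw [cpy_eq, cpy_eq, image_image]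
  exact image_congr fun x _ => af_comp M M' c c' x

theorem af_inj {M : Matrix (Fin n) (Fin n) ℤ} (hM : IsUnit M.det) (c : Fin n → ℝ) :
    Function.Injective (af M c) := by
  have h1 : IsUnit (M.map (Int.cast : ℤ → ℝ)) := by
    rw [Matrix.isUnit_iff_isUnit_det]
    have h2 : (M.map (Int.cast : ℤ → ℝ)).det = ((M.det : ℤ) : ℝ) := by
      have := (RingHom.map_det (Int.castRingHom ℝ) M).symm
      simpa using this
    rw [h2]
    have := hM.map (Int.castRingHom ℝ)
    simpa using this
  intro x y hxy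
  unfold af at hxy
  have h3 := add_right_cancel hxy
  exact Matrix.mulVec_injective_iff_isUnit.2 h1 h3

/-- the statement of `alcoves` that is used -/
def Alc (n : ℕ) : Prop := ∀ t : ℝ, 0 < t →
    ∃ (M : (Fin n → Fin 2) → Matrix (Fin n) (Fin n) ℤ) (c : (Fin n → Fin 2) → Fin n → ℝ),
      (∀ g, IsUnit (M g).det) ∧ (∀ g, cpy t (M g) (c g) ⊆ Sx n (2 * t)) ∧
      (∀ g g', g ≠ g' → Disjoint (cpy t (M g) (c g)) (cpy t (M g') (c g')))

theorem kraft_aux (hA : Alc n) (L : ℕ) : ∀ (ι κ : Type) [Fintype ι] [Fintype κ]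
    (D : Set (Fin n → ℝ)) (t : ℝ) (_ : 0 < t)
    (M : κ → Matrix (Fin n) (Fin n) ℤ) (c : κ → Fin n → ℝ) (_ : ∀ i, IsUnit (M i).det)
    (_ : ∀ i, cpy t (M i) (c i) ⊆ D)
    (_ : ∀ i j, i ≠ j → Disjoint (cpy t (M i) (c i)) (cpy t (M j) (c j)))
    (l : ι → ℕ) (_ : ∀ i, l i ≤ L)
    (_ : ∑ i, (((2 : ℚ) ^ n) ^ l i)⁻¹ ≤ Fintype.card κ),
    ∃ (M' : ι → Matrix (Fin n) (Fin n) ℤ) (c' : ι → Fin n → ℝ),
      (∀ i, IsUnit (M' i).det) ∧ (∀ i, cpy (t / 2 ^ l i) (M' i) (c' i) ⊆ D) ∧
      ∀ i j, i ≠ j →
        Disjoint (cpy (t / 2 ^ l i) (M' i) (c' i)) (cpy (t / 2 ^ l j) (M' j) (c' j)) := by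
  classical
  induction L with
  | zero =>
    intro ι κ _ _ D t ht M c hM hin hdis l hL hl
    have h0 : ∀ i, l i = 0 := fun i => Nat.le_zero.1 (hL i)
    have hcard : Fintype.card ι ≤ Fintype.card κ := by
      simp only [h0, pow_zero, inv_one, Finset.sum_const, Finset.card_univ, nsmul_eq_mul,
        mul_one] at hl
      exact_mod_cast hl
    obtain ⟨f⟩ := Function.Embedding.nonempty_of_card_le hcard
    refine ⟨fun i => M (f i), fun i => c (f i), fun i => hM _, fun i => ?_, fun i j hij => ?_⟩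
    · rw [h0, pow_zero, div_one]
      exact hin _
    · rw [h0, h0, pow_zero, div_one]
      exact hdis _ _ fun h => hij (f.injective h)
  | succ L ih =>
    intro ι κ _ _ D t ht M c hM hin hdis l hL hl
    -- the cells used at this scale
    have hsplit : ∑ i, (((2 : ℚ) ^ n) ^ l i)⁻¹ = (Fintype.card {i // l i = 0} : ℚ) +
        ∑ i : {i // ¬ l i = 0}, (((2 : ℚ) ^ n) ^ l i.1)⁻¹ := by
      rw [← Fintype.sum_subtype_add_sum_subtype (fun i => l i = 0)]
      congr 1
      rw [Finset.sum_congr rfl fun (i : {i // l i = 0}) _ => by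
        rw [i.2, pow_zero, inv_one]]
      simp
    have hnn : 0 ≤ ∑ i : {i // ¬ l i = 0}, (((2 : ℚ) ^ n) ^ l i.1)⁻¹ :=
      Finset.sum_nonneg fun i _ => by positivity
    have hcard : Fintype.card {i // l i = 0} ≤ Fintype.card κ := by
      have : (Fintype.card {i // l i = 0} : ℚ) ≤ Fintype.card κ := by linarith
      exact_mod_cast this
    obtain ⟨f⟩ := Function.Embedding.nonempty_of_card_le hcard
    have hcard' : Fintype.card {j // j ∉ Set.range f} = Fintype.card κ -
        Fintype.card {i // l i = 0} := by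
      rw [Fintype.card_subtype_compl]
      congr 1
      exact Fintype.card_range f
    obtain ⟨Ma, ca, ha1, ha2, ha3⟩ := hA (t / 2) (by positivity)
    have h2t : 2 * (t / 2) = t := by ring
    rw [h2t] at ha2
    -- the finer cells
    obtain ⟨M', c', k1, k2, k3⟩ := ih {i // ¬ l i = 0} ({j // j ∉ Set.range f} × (Fin n → Fin 2))
      (⋃ j : {j // j ∉ Set.range f}, cpy t (M j.1) (c j.1)) (t / 2) (by positivity)
      (fun p => M p.1.1 * Ma p.2) (fun p => af (M p.1.1) (c p.1.1) (ca p.2))
      (fun p => by rw [Matrix.det_mul]; exact (hM _).mul (ha1 _))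
      (fun p => by
        rw [cpy_comp]
        refine Subset.trans ?_ (subset_iUnion (fun j : {j // j ∉ Set.range f} =>
          cpy t (M j.1) (c j.1)) p.1)
        rw [cpy_eq t]
        exact image_mono (ha2 p.2))
      (fun p q hpq => by
        rw [cpy_comp, cpy_comp]
        by_cases h : p.1 = q.1
        · have h2 : p.2 ≠ q.2 := fun h2 => hpq (Prod.ext h h2)
          rw [h]
          exact (disjoint_image_iff (af_inj (hM _) _)).2 (ha3 _ _ h2)
        · have h2 : p.1.1 ≠ q.1.1 := fun h2 => h (Subtype.ext h2)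
          refine (hdis _ _ h2).mono ?_ ?_
          · rw [cpy_eq t]
            exact image_mono (ha2 p.2)
          · rw [cpy_eq t]
            exact image_mono (ha2 q.2))
      (fun i => l i.1 - 1) (fun i => by have := hL i.1; omega)
      (by
        have e1 : ∀ i : {i // ¬ l i = 0}, (((2 : ℚ) ^ n) ^ (l i.1 - 1))⁻¹ =
            2 ^ n * (((2 : ℚ) ^ n) ^ l i.1)⁻¹ := by
          intro i
          have h1 : l i.1 = (l i.1 - 1) + 1 := by have := i.2; omega
          conv_rhs => rw [h1, pow_succ, mul_inv]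
          have h2 : ((2 : ℚ) ^ n) ≠ 0 := by positivity
          field_simp
        rw [Finset.sum_congr rfl fun i _ => e1 i, ← Finset.mul_sum, Fintype.card_prod, hcard']
        have e2 : Fintype.card (Fin n → Fin 2) = 2 ^ n := by simp
        rw [e2]
        push_cast [Nat.cast_sub hcard]
        rw [mul_comm]
        refine mul_le_mul_of_nonneg_right ?_ (by positivity)
        linarith)
    refine ⟨fun i => if h : l i = 0 then M (f ⟨i, h⟩) else M' ⟨i, h⟩,
      fun i => if h : l i = 0 then c (f ⟨i, h⟩) else c' ⟨i, h⟩, ?_, ?_, ?_⟩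
    · intro i
      by_cases h : l i = 0
      · simp only [h, dite_true]
        exact hM _
      · simp only [h, dite_false]
        exact k1 _
    · intro i
      by_cases h : l i = 0
      · simp only [h, dite_true, pow_zero, div_one]
        exact hin _
      · simp only [h, dite_false]
        have h1 := k2 ⟨i, h⟩
        have e : t / 2 / 2 ^ (l i - 1) = t / 2 ^ l i := by
          have h3 : l i = (l i - 1) + 1 := by omega
          conv_rhs => rw [h3, pow_succ]
          field_simp
        simp only at h1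
        rw [e] at h1
        exact h1.trans (iUnion_subset fun j => hin _)
    · -- disjointness
      have key : ∀ i (h : ¬ l i = 0), cpy (t / 2 ^ l i) (M' ⟨i, h⟩) (c' ⟨i, h⟩) ⊆
          ⋃ j : {j // j ∉ Set.range f}, cpy t (M j.1) (c j.1) := by
        intro i h
        have h1 := k2 ⟨i, h⟩
        have e : t / 2 / 2 ^ (l i - 1) = t / 2 ^ l i := by
          have h3 : l i = (l i - 1) + 1 := by omega
          conv_rhs => rw [h3, pow_succ]
          field_simp
        simp only at h1
        rw [e] at h1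
        exact h1
      have key2 : ∀ i (h : l i = 0), Disjoint (cpy t (M (f ⟨i, h⟩)) (c (f ⟨i, h⟩)))
          (⋃ j : {j // j ∉ Set.range f}, cpy t (M j.1) (c j.1)) := by
        intro i h
        rw [disjoint_iUnion_right]
        intro j
        refine hdis _ _ fun he => j.2 ?_
        exact ⟨_, he⟩
      intro i j hij
      by_cases hi : l i = 0 <;> by_cases hj : l j = 0
      · simp only [hi, hj, dite_true, pow_zero, div_one]
        refine hdis _ _ fun h => hij ?_
        have := f.injective h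
        simpa using this
      · simp only [hi, hj, dite_true, dite_false, pow_zero, div_one]
        exact (key2 i hi).mono_right (key j hj)
      · simp only [hi, hj, dite_true, dite_false, pow_zero, div_one]
        exact ((key2 j hj).mono_right (key i hi)).symm
      · simp only [hi, hj, dite_false]
        have h1 := k3 ⟨i, hi⟩ ⟨j, hj⟩ (fun h => hij (by simpa using h))
        have e : ∀ i, ¬ l i = 0 → t / 2 / 2 ^ (l i - 1) = t / 2 ^ l i := by
          intro i hi
          have h3 : l i = (l i - 1) + 1 := by omega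
          conv_rhs => rw [h3, pow_succ]
          field_simp
        simp only at h1
        rw [e i hi, e j hj] at h1
        exact h1

theorem kraft_of (hA : Alc n) {N k : ℕ} (D : Set (Fin n → ℝ)) {t : ℝ} (ht : 0 < t)
    (M : Fin N → Matrix (Fin n) (Fin n) ℤ) (c : Fin N → Fin n → ℝ) (hM : ∀ i, IsUnit (M i).det)
    (hin : ∀ i, cpy t (M i) (c i) ⊆ D)
    (hdis : ∀ i j, i ≠ j → Disjoint (cpy t (M i) (c i)) (cpy t (M j) (c j)))
    (l : Fin k → ℕ) (hl : ∑ i, (((2 : ℚ) ^ n) ^ l i)⁻¹ ≤ N) :
    ∃ (M' : Fin k → Matrix (Fin n) (Fin n) ℤ) (c' : Fin k → Fin n → ℝ),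
      (∀ i, IsUnit (M' i).det) ∧ (∀ i, cpy (t / 2 ^ l i) (M' i) (c' i) ⊆ D) ∧
      ∀ i j, i ≠ j →
        Disjoint (cpy (t / 2 ^ l i) (M' i) (c' i)) (cpy (t / 2 ^ l j) (M' j) (c' j)) := by
  refine kraft_aux hA (∑ i, l i) (Fin k) (Fin N) D t ht M c hM hin hdis l
    (fun i => Finset.single_le_sum (f := l) (fun _ _ => Nat.zero_le _) (Finset.mem_univ i)) ?_
  simpa using hl

end Kraft

end P209
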