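import Vale.Agent.P209.Alcove
import Vale.Agent.P209.KraftOf

/-!
# P209 [K]: dyadic subdivision
-/

open Set Topology
open scoped ContDiff

namespace P209

variable {n : ℕ}

theorem kraft {n N k : ℕ} (D : Set (Fin n → ℝ)) {t : ℝ} (ht : 0 < t)
    (M : Fin N → Matrix (Fin n) (Fin n) ℤ) (c : Fin N → Fin n → ℝ) (hM : ∀ i, IsUnit (M i).det)
    (hin : ∀ i, cpy t (M i) (c i) ⊆ D)
    (hdis : ∀ i j, i ≠ j → Disjoint (cpy t (M i) (c i)) (cpy t (M j) (c j)))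
    (l : Fin k → ℕ) (hl : ∑ i, (((2 : ℚ) ^ n) ^ l i)⁻¹ ≤ N) :
    ∃ (M' : Fin k → Matrix (Fin n) (Fin n) ℤ) (c' : Fin k → Fin n → ℝ),
      (∀ i, IsUnit (M' i).det) ∧ (∀ i, cpy (t / 2 ^ l i) (M' i) (c' i) ⊆ D) ∧
      ∀ i j, i ≠ j → Disjoint (cpy (t / 2 ^ l i) (M' i) (c' i)) (cpy (t / 2 ^ l j) (M' j) (c' j)) := by
  refine Kraft.kraft_of (fun s hs => ?_) D ht M c hM hin hdis l hl
  obtain ⟨Ma, ca, h1, h2, h3, -⟩ := alcoves n 2 (by norm_num) hs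
  refine ⟨Ma, ca, h1, fun g => ?_, h3⟩
  have := h2 g
  push_cast at this
  exact this

end P209
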