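import Vale.Agent.P209.Alcove
import Vale.Agent.P209.KraftOf
import Vale.Agent.P209.Toric

/-!
# P209 [E]: asymptotically sharp volume form with one ball of arbitrary size
-/

open Set Topology
open scoped ContDiff

namespace P209

namespace SharpAux

variable {n : ℕ}

theorem alc (n : ℕ) : Kraft.Alc n := by
  intro s hs
  obtain ⟨Ma, ca, h1, h2, h3, -⟩ := alcoves n 2 (by norm_num) hs
  refine ⟨Ma, ca, h1, fun g => ?_, h3⟩
  have := h2 g
  push_cast at this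
  exact this

/-- dyadic fractions of the `b`-th part of cells -/
theorem fillb {ι κ : Type} [Fintype ι] [Fintype κ] (D : Set (Fin n → ℝ)) {t : ℝ} (ht : 0 < t)
    (M : κ → Matrix (Fin n) (Fin n) ℤ) (c : κ → Fin n → ℝ) (hM : ∀ i, IsUnit (M i).det)
    (hin : ∀ i, cpy t (M i) (c i) ⊆ D)
    (hdis : ∀ i j, i ≠ j → Disjoint (cpy t (M i) (c i)) (cpy t (M j) (c j)))
    (b : ℕ) (hb : 1 ≤ b) (l : ι → ℕ)
    (hl : ∑ i, (((2 : ℚ) ^ n) ^ l i)⁻¹ ≤ Fintype.card κ * (b : ℚ) ^ n) :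
    ∃ (M' : ι → Matrix (Fin n) (Fin n) ℤ) (c' : ι → Fin n → ℝ),
      (∀ i, IsUnit (M' i).det) ∧ (∀ i, cpy (t / b / 2 ^ l i) (M' i) (c' i) ⊆ D) ∧
      ∀ i j, i ≠ j →
        Disjoint (cpy (t / b / 2 ^ l i) (M' i) (c' i)) (cpy (t / b / 2 ^ l j) (M' j) (c' j)) := by
  classical
  have hb0 : (0 : ℝ) < b := by exact_mod_cast hb
  obtain ⟨Ma, ca, ha1, ha2, ha3, -⟩ := alcoves n b hb (t := t / b) (by positivity)
  have hbt : (b : ℝ) * (t / b) = t := by field_simp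
  rw [hbt] at ha2
  refine Kraft.kraft_aux (alc n) (Finset.univ.sup l) ι (κ × (Fin n → Fin b)) D (t / b)
    (by positivity) (fun p => M p.1 * Ma p.2) (fun p => Kraft.af (M p.1) (c p.1) (ca p.2))
    (fun p => by rw [Matrix.det_mul]; exact (hM _).mul (ha1 _)) (fun p => ?_) (fun p q hpq => ?_)
    l (fun i => Finset.le_sup (Finset.mem_univ i)) ?_
  · rw [Kraft.cpy_comp]
    refine Subset.trans ?_ (hin p.1)
    rw [Kraft.cpy_eq t]
    exact image_mono (ha2 p.2)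
  · rw [Kraft.cpy_comp, Kraft.cpy_comp]
    by_cases h : p.1 = q.1
    · have h2 : p.2 ≠ q.2 := fun h2 => hpq (Prod.ext h h2)
      rw [h]
      exact (disjoint_image_iff (Kraft.af_inj (hM _) _)).2 (ha3 _ _ h2)
    · refine (hdis _ _ h).mono ?_ ?_
      · rw [Kraft.cpy_eq t]
        exact image_mono (ha2 p.2)
      · rw [Kraft.cpy_eq t]
        exact image_mono (ha2 q.2)
  · refine hl.trans (le_of_eq ?_)
    rw [Fintype.card_prod]
    have : Fintype.card (Fin n → Fin b) = b ^ n := by simp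
    rw [this]
    push_cast
    ring

/-- sizes `t / (b 2^l)` with `B ≤ b < 2 B` -/
theorem fill {k : ℕ} {κ : Type} [Fintype κ] (D : Set (Fin n → ℝ)) {t : ℝ} (ht : 0 < t)
    (M : κ → Matrix (Fin n) (Fin n) ℤ) (c : κ → Fin n → ℝ) (hM : ∀ i, IsUnit (M i).det)
    (hin : ∀ i, cpy t (M i) (c i) ⊆ D)
    (hdis : ∀ i j, i ≠ j → Disjoint (cpy t (M i) (c i)) (cpy t (M j) (c j)))
    (B : ℕ) (hB : 1 ≤ B) (b : Fin k → ℕ) (hb1 : ∀ i, B ≤ b i) (hb2 : ∀ i, b i < 2 * B)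
    (l : Fin k → ℕ)
    (hvol : ∑ i, (((b i : ℚ) * 2 ^ l i) ^ n)⁻¹ + B ≤ Fintype.card κ) :
    ∃ (M' : Fin k → Matrix (Fin n) (Fin n) ℤ) (c' : Fin k → Fin n → ℝ),
      (∀ i, IsUnit (M' i).det) ∧ (∀ i, cpy (t / b i / 2 ^ l i) (M' i) (c' i) ⊆ D) ∧
      ∀ i j, i ≠ j →
        Disjoint (cpy (t / b i / 2 ^ l i) (M' i) (c' i))
          (cpy (t / b j / 2 ^ l j) (M' j) (c' j)) := by
  classical
  set w : Fin k → ℚ := fun i => (((b i : ℚ) * 2 ^ l i) ^ n)⁻¹ with hw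
  have hw0 : ∀ i, 0 ≤ w i := fun i => by simp only [hw]; positivity
  set N : Fin B → ℕ := fun β => ⌈∑ i with b i = B + β, w i⌉₊ with hN
  have hNle : ∀ β, (N β : ℚ) ≤ (∑ i with b i = B + β, w i) + 1 := fun β =>
    (Nat.ceil_lt_add_one (Finset.sum_nonneg fun i _ => hw0 i)).le
  have hcard : Fintype.card (Σ β : Fin B, Fin (N β)) ≤ Fintype.card κ := by
    rw [Fintype.card_sigma]
    simp only [Fintype.card_fin]
    have h1 : ((∑ β, N β : ℕ) : ℚ) ≤ ∑ i, w i + B := by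
      push_cast
      calc ∑ β, (N β : ℚ) ≤ ∑ β : Fin B, ((∑ i with b i = B + β, w i) + 1) :=
            Finset.sum_le_sum fun β _ => hNle β
        _ = ∑ β : Fin B, (∑ i with b i = B + β, w i) + B := by
            rw [Finset.sum_add_distrib]; simp
        _ = ∑ i, w i + B := by
            congr 1
            simp only [Finset.sum_filter]
            rw [Finset.sum_comm]
            refine Finset.sum_congr rfl fun i _ => ?_
            rw [Finset.sum_eq_single (⟨b i - B, by have := hb1 i; have := hb2 i; omega⟩ : Fin B)]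
            · rw [if_pos]
              have := hb1 i
              simp only
              omega
            · intro β _ hβ
              rw [if_neg]
              intro h
              apply hβ
              apply Fin.ext
              simp only
              omega
            · intro h
              exact absurd (Finset.mem_univ _) h
    exact_mod_cast h1.trans hvol
  obtain ⟨f⟩ := Function.Embedding.nonempty_of_card_le hcard
  set DD : Fin B → Set (Fin n → ℝ) := fun β =>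
    ⋃ j : Fin (N β), cpy t (M (f ⟨β, j⟩)) (c (f ⟨β, j⟩)) with hDD
  have hDin : ∀ β, DD β ⊆ D := fun β => iUnion_subset fun j => hin _
  have hDdis : ∀ β β', β ≠ β' → Disjoint (DD β) (DD β') := by
    intro β β' h
    simp only [hDD]
    rw [disjoint_iUnion_left]
    intro j
    rw [disjoint_iUnion_right]
    intro j'
    refine hdis _ _ fun h2 => h ?_
    have := f.injective h2
    exact congrArg Sigma.fst this
  have key : ∀ β : Fin B, ∃ (M' : Fin k → Matrix (Fin n) (Fin n) ℤ) (c' : Fin k → Fin n → ℝ),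
      (∀ i, b i = B + β → IsUnit (M' i).det) ∧
      (∀ i, b i = B + β → cpy (t / b i / 2 ^ l i) (M' i) (c' i) ⊆ DD β) ∧
      ∀ i j, i ≠ j → b i = B + β → b j = B + β →
        Disjoint (cpy (t / b i / 2 ^ l i) (M' i) (c' i))
          (cpy (t / b j / 2 ^ l j) (M' j) (c' j)) := by
    intro β
    obtain ⟨M', c', h1, h2, h3⟩ := fillb (ι := {i : Fin k // b i = B + β}) (κ := Fin (N β))
      (DD β) ht (fun j => M (f ⟨β, j⟩)) (fun j => c (f ⟨β, j⟩)) (fun j => hM _)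
      (fun j => subset_iUnion (fun j : Fin (N β) => cpy t (M (f ⟨β, j⟩)) (c (f ⟨β, j⟩))) j)
      (fun i j hij => hdis _ _ fun h => hij (by
        have := f.injective h
        simpa using this)) (B + β) (by omega) (fun i => l i.1) (by
        rw [Fintype.card_fin]
        have e1 : ∑ i with b i = B + β, w i ≤ N β := Nat.le_ceil _
        have e2 : ∑ i : {i : Fin k // b i = B + β}, (((2 : ℚ) ^ n) ^ l i.1)⁻¹ =
            (∑ i with b i = B + β, w i) * ((B + β : ℕ) : ℚ) ^ n := by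
          rw [Finset.sum_mul, Finset.sum_subtype (Finset.univ.filter fun i => b i = B + β)
            (p := fun i => b i = B + β) (by simp) (fun i => w i * ((B + β : ℕ) : ℚ) ^ n)]
          refine Finset.sum_congr rfl fun i _ => ?_
          have hi := i.2
          have h0 : ((B + β : ℕ) : ℚ) ≠ 0 := by
            have : B + (β : ℕ) ≠ 0 := by omega
            exact_mod_cast this
          simp only [hw]
          rw [hi, mul_pow, mul_inv, mul_comm, ← mul_assoc, mul_inv_cancel₀ (pow_ne_zero _ h0),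
            one_mul, ← pow_mul, ← pow_mul, mul_comm n]
        rw [e2]
        exact mul_le_mul_of_nonneg_right e1 (by positivity))
    refine ⟨fun i => if h : b i = B + β then M' ⟨i, h⟩ else 1,
      fun i => if h : b i = B + β then c' ⟨i, h⟩ else 0, fun i h => ?_, fun i h => ?_,
      fun i j hij hi hj => ?_⟩
    · simp only [h, dif_pos]
      exact h1 _
    · have := h2 ⟨i, h⟩
      simp only [h, dif_pos]
      exact this
    · have := h3 ⟨i, hi⟩ ⟨j, hj⟩ (fun h => hij (congrArg Subtype.val h))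
      simp only [hi, hj, dif_pos]
      exact this
  choose M' c' h1 h2 h3 using key
  set β : Fin k → Fin B := fun i => ⟨b i - B, by have := hb1 i; have := hb2 i; omega⟩ with hβ
  have hbβ : ∀ i, b i = B + β i := fun i => by
    have := hb1 i
    simp only [hβ]
    omega
  refine ⟨fun i => M' (β i) i, fun i => c' (β i) i, fun i => h1 _ _ (hbβ i),
    fun i => (h2 _ _ (hbβ i)).trans (hDin _), fun i j hij => ?_⟩
  by_cases h : β i = β j
  · have e := h3 (β i) i j hij (hbβ i) (by rw [h]; exact hbβ j)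
    change Disjoint (cpy _ (M' (β i) i) (c' (β i) i)) (cpy _ (M' (β j) j) (c' (β j) j))
    rw [← h]
    exact e
  · exact (hDdis _ _ h).mono (h2 _ _ (hbβ i)) (h2 _ _ (hbβ j))

/-- rounding -/
theorem round {B : ℕ} (hB : 1 ≤ B) {u : ℝ} (hu : (B : ℝ) ≤ u) :
    ∃ b l : ℕ, B ≤ b ∧ b < 2 * B ∧ (b : ℝ) * 2 ^ l ≤ u ∧ u < ((b : ℝ) + 1) * 2 ^ l := by
  have hB0 : (0 : ℝ) < B := by exact_mod_cast hB
  have h1 : (1 : ℝ) ≤ u / B := by rw [le_div_iff₀ hB0]; linarith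
  have hne : ⌊u / B⌋₊ ≠ 0 := by
    have := Nat.le_floor (n := 1) (a := u / B) (by simpa using h1)
    omega
  set l := Nat.log 2 ⌊u / B⌋₊ with hl
  have h2 : ((2 : ℝ) ^ l) ≤ u / B := by
    have h3 := Nat.pow_log_le_self 2 hne
    have h4 : ((2 ^ l : ℕ) : ℝ) ≤ (⌊u / B⌋₊ : ℝ) := by exact_mod_cast h3
    push_cast at h4
    exact h4.trans (Nat.floor_le (by linarith))
  have h3 : u / B < 2 ^ (l + 1) := by
    have h4 := Nat.lt_pow_succ_log_self (b := 2) (by norm_num) ⌊u / B⌋₊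
    have h5 := (Nat.floor_lt (by linarith : (0 : ℝ) ≤ u / B)).1 h4
    push_cast at h5
    exact h5
  have hp : (0 : ℝ) < 2 ^ l := by positivity
  rw [le_div_iff₀ hB0] at h2
  rw [div_lt_iff₀ hB0] at h3
  set v := u / 2 ^ l with hv
  have hv1 : (B : ℝ) ≤ v := by rw [hv, le_div_iff₀ hp]; linarith
  have hv2 : v < 2 * B := by
    rw [hv, div_lt_iff₀ hp]
    rw [pow_succ] at h3
    linarith
  refine ⟨⌊v⌋₊, l, Nat.le_floor hv1, ?_, ?_, ?_⟩
  · rw [Nat.floor_lt (by linarith)]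
    push_cast
    exact hv2
  · rw [← le_div_iff₀ hp]
    exact Nat.floor_le (by linarith)
  · rw [← div_lt_iff₀ hp]
    exact Nat.lt_floor_add_one v

theorem pow_sub_le {x y : ℝ} (hy : 0 ≤ y) (hxy : y ≤ x) (n : ℕ) :
    x ^ (n + 1) - y ^ (n + 1) ≤ (n + 1) * (x - y) * x ^ n := by
  induction n with
  | zero => simp
  | succ n ih =>
    have hx : 0 ≤ x := hy.trans hxy
    have h1 : y ^ (n + 1) ≤ x ^ (n + 1) := pow_le_pow_left₀ hy hxy _
    have h2 := mul_le_mul_of_nonneg_left ih hx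
    have h3 := mul_le_mul_of_nonneg_right h1 (sub_nonneg.2 hxy)
    push_cast
    have e1 : x * ((n + 1) * (x - y) * x ^ n) = (n + 1) * (x - y) * x ^ (n + 1) := by ring
    rw [e1] at h2
    nlinarith [h2, h3, pow_succ x (n + 1), pow_succ y (n + 1)]

theorem exists_B (n : ℕ) {δ : ℝ} (hδ : 0 < δ) :
    ∃ B : ℕ, 1 ≤ B ∧ ((1 + 1 / (B : ℝ)) ^ 2) ^ n * (1 - δ) ≤ 1 - δ / 2 := by
  have h1 : Filter.Tendsto (fun B : ℕ => ((1 + 1 / ((B : ℝ) + 1)) ^ 2) ^ n * (1 - δ)) Filter.atTop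
      (𝓝 (((1 + 0) ^ 2) ^ n * (1 - δ))) := by
    refine Filter.Tendsto.mul_const _ (Filter.Tendsto.pow (Filter.Tendsto.pow ?_ 2) n)
    exact tendsto_one_div_add_atTop_nhds_zero_nat.const_add 1
  have h2 : ((1 + 0) ^ 2) ^ n * (1 - δ) < 1 - δ / 2 := by
    rw [add_zero, one_pow, one_pow, one_mul]
    linarith
  obtain ⟨B, hB⟩ := (h1.eventually (gt_mem_nhds h2)).exists
  refine ⟨B + 1, by omega, ?_⟩
  push_cast
  exact hB.le

theorem card_slab (n m j : ℕ) :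
    m ^ n ≤ Fintype.card {g : Fin n → Fin m // ∃ i, j ≤ (g i : ℕ)} + j ^ n := by
  classical
  have h1 : Fintype.card {g : Fin n → Fin m // ¬ ∃ i, j ≤ (g i : ℕ)} ≤ j ^ n := by
    have h2 : Fintype.card (Fin n → Fin j) = j ^ n := by simp
    rw [← h2]
    refine Fintype.card_le_of_injective
      (fun g => fun i => ⟨(g.1 i : ℕ), not_le.1 fun h => g.2 ⟨i, h⟩⟩) ?_
    intro g g' h
    apply Subtype.ext
    funext i
    have := congrFun h i
    simp only [Fin.mk.injEq] at this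
    exact Fin.ext this
  have h3 := Fintype.card_subtype_compl (fun g : Fin n → Fin m => ∃ i, j ≤ (g i : ℕ))
  have h4 : Fintype.card (Fin n → Fin m) = m ^ n := by simp
  rw [h4] at h3
  omega

theorem cpy_one (a : ℝ) : cpy a (1 : Matrix (Fin n) (Fin n) ℤ) 0 = Sx n a := by
  unfold cpy
  have h : (1 : Matrix (Fin n) (Fin n) ℤ).map (Int.cast : ℤ → ℝ) = 1 :=
    Matrix.map_one _ (by simp) (by simp)
  rw [h]
  simp

theorem Sx_mono {a b : ℝ} (h : a ≤ b) : Sx n a ⊆ Sx n b := fun _ hx => ⟨hx.1, hx.2.trans_le h⟩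

theorem assemble {k : ℕ} {R s0 : ℝ} {a : Fin (k + 1) → ℝ} (s : Fin k → ℝ)
    (M' : Fin k → Matrix (Fin n) (Fin n) ℤ) (c' : Fin k → Fin n → ℝ) (h0 : a 0 < s0)
    (hs : ∀ i : Fin k, a i.succ < s i) (hR : s0 ≤ R) (f1 : ∀ i, IsUnit (M' i).det)
    (f2 : ∀ i, cpy (s i) (M' i) (c' i) ⊆ {x | x ∈ Sx n R ∧ s0 < ∑ i, x i})
    (f3 : ∀ i j, i ≠ j → Disjoint (cpy (s i) (M' i) (c' i)) (cpy (s j) (M' j) (c' j))) :
    Packs n R a := by
  have hkey : ∀ i : Fin k, Disjoint (Sx n s0) (cpy (s i) (M' i) (c' i)) := by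
    intro i
    rw [Set.disjoint_left]
    intro x hx hx2
    exact absurd (f2 i hx2).2 (not_lt.2 hx.2.le)
  let S : Fin (k + 1) → ℝ := Fin.cases s0 s
  let MM : Fin (k + 1) → Matrix (Fin n) (Fin n) ℤ := Fin.cases 1 M'
  let CC : Fin (k + 1) → Fin n → ℝ := Fin.cases 0 c'
  have e0 : cpy (S 0) (MM 0) (CC 0) = Sx n s0 := cpy_one s0
  have e1 : ∀ i : Fin k, cpy (S i.succ) (MM i.succ) (CC i.succ) = cpy (s i) (M' i) (c' i) :=
    fun i => rfl
  refine toric (s := S) ?_ MM ?_ CC ?_ ?_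
  · intro i
    refine Fin.cases ?_ (fun i => ?_) i
    · exact h0
    · exact hs i
  · intro i
    refine Fin.cases ?_ (fun i => ?_) i
    · change IsUnit (1 : Matrix (Fin n) (Fin n) ℤ).det
      simp
    · exact f1 i
  · intro i
    refine Fin.cases ?_ (fun i => ?_) i
    · rw [e0]
      exact Sx_mono hR
    · rw [e1]
      exact (f2 i).trans fun x hx => hx.1
  · intro i j
    refine Fin.cases ?_ (fun i => ?_) i
    · refine Fin.cases (fun h => absurd rfl h) (fun j _ => ?_) j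
      rw [e0, e1]
      exact hkey j
    · refine Fin.cases (fun _ => ?_) (fun j h => ?_) j
      · rw [e0, e1]
        exact (hkey i).symm
      · rw [e1, e1]
        exact f3 i j fun h2 => h (by rw [h2])

theorem round' {B : ℕ} (hB : 1 ≤ B) {t x : ℝ} (ht0 : 0 < t) (hx : 0 < x) (h3 : x ≤ t / (2 * B)) :
    ∃ b l : ℕ, B ≤ b ∧ b < 2 * B ∧ (1 + 1 / (B : ℝ)) * x ≤ t / b / 2 ^ l ∧
      t / b / 2 ^ l ≤ (1 + 1 / (B : ℝ)) ^ 2 * x := by
  have hB0 : (1 : ℝ) ≤ B := by exact_mod_cast hB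
  have h2 : (1 + 1 / (B : ℝ)) ≤ 2 := by
    have : 1 / (B : ℝ) ≤ 1 := by rw [div_le_one (by linarith)]; exact hB0
    linarith
  have hc0 : 0 < (1 + 1 / (B : ℝ)) * x := by positivity
  obtain ⟨b, l, hb1, hb2, hb3, hb4⟩ := round hB (u := t / ((1 + 1 / (B : ℝ)) * x)) (by
    rw [le_div_iff₀ hc0]
    rw [le_div_iff₀ (by positivity)] at h3
    calc (B : ℝ) * ((1 + 1 / (B : ℝ)) * x) ≤ B * (2 * x) := by gcongr
      _ = x * (2 * B) := by ring
      _ ≤ t := h3)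
  have hbB : (B : ℝ) ≤ b := by exact_mod_cast hb1
  have hb0 : (0 : ℝ) < b := by linarith
  have hp : (0 : ℝ) < 2 ^ l := by positivity
  refine ⟨b, l, hb1, hb2, ?_, ?_⟩
  · rw [le_div_iff₀ hc0] at hb3
    rw [div_div, le_div_iff₀ (by positivity)]
    linarith
  · rw [div_lt_iff₀ hc0] at hb4
    rw [div_div, div_le_iff₀ (by positivity)]
    have h5 : (b : ℝ) + 1 ≤ (1 + 1 / (B : ℝ)) * b := by
      have : 1 ≤ 1 / (B : ℝ) * b := by
        rw [one_div, ← div_eq_inv_mul, le_div_iff₀ (by linarith)]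
        linarith
      linarith
    calc t ≤ ((b : ℝ) + 1) * 2 ^ l * ((1 + 1 / (B : ℝ)) * x) := hb4.le
      _ ≤ ((1 + 1 / (B : ℝ)) * b) * 2 ^ l * ((1 + 1 / (B : ℝ)) * x) := by gcongr
      _ = (1 + 1 / (B : ℝ)) ^ 2 * x * (b * 2 ^ l) := by ring

theorem V_low (p : ℕ) {R x ρ : ℝ} (hx : 0 ≤ x) (h0 : x ≤ R) (hρ : ρ = R - x) :
    ρ * R ^ p ≤ R ^ (p + 1) - x ^ (p + 1) := by
  have h1 : x ^ p ≤ R ^ p := pow_le_pow_left₀ hx h0 _
  have h2 := mul_le_mul_of_nonneg_left h1 hx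
  rw [hρ, pow_succ, pow_succ]
  nlinarith

theorem cells (p q J B : ℕ) {δ R x t : ℝ} (hδ : 0 < δ) (ht0 : 0 < t) (hx : 0 < x) (h0 : x < R)
    (hJt : (J : ℝ) * t = R - x) (hq1 : (q : ℝ) * t ≤ x) (hq2 : x < ((q : ℝ) + 1) * t)
    (hJ2 : (2 : ℝ) ≤ J) (hJδ : B + 2 * (p + 1 : ℝ) ≤ J * (δ / 2)) :
    (1 - δ / 2) * (R ^ (p + 1) - x ^ (p + 1)) + B * t ^ (p + 1) ≤
      (((q + J : ℕ) : ℝ) * t) ^ (p + 1) - (((q : ℝ) + 1) * t) ^ (p + 1) := by
  have htρ : 2 * t ≤ R - x := by rw [← hJt]; nlinarith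
  have e1 : R - t ≤ ((q + J : ℕ) : ℝ) * t := by push_cast; linarith
  have e2 : ((q : ℝ) + 1) * t ≤ x + t := by linarith
  have e3 : (R - t) ^ (p + 1) ≤ (((q + J : ℕ) : ℝ) * t) ^ (p + 1) :=
    pow_le_pow_left₀ (by linarith) e1 _
  have e4 : (((q : ℝ) + 1) * t) ^ (p + 1) ≤ (x + t) ^ (p + 1) :=
    pow_le_pow_left₀ (by positivity) e2 _
  have e5 := pow_sub_le (x := R) (y := R - t) (by linarith) (by linarith) p
  have e6 := pow_sub_le (x := x + t) (y := x) hx.le (by linarith) p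
  have hR0 : 0 < R := by linarith
  have e7 : (x + t) ^ p ≤ R ^ p := pow_le_pow_left₀ (by linarith) (by linarith) _
  have e8 : t ^ p ≤ R ^ p := pow_le_pow_left₀ ht0.le (by linarith) _
  rw [sub_sub_cancel] at e5
  rw [add_sub_cancel_left] at e6
  have e9 : ((p : ℝ) + 1) * t * (x + t) ^ p ≤ ((p : ℝ) + 1) * t * R ^ p := by gcongr
  have e10 : (B : ℝ) * t ^ (p + 1) ≤ B * (t * R ^ p) := by
    rw [pow_succ, mul_comm (t ^ p)]
    gcongr
  have e11 : (B + 2 * (p + 1 : ℝ)) * (t * R ^ p) ≤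
      (δ / 2) * (R ^ (p + 1) - x ^ (p + 1)) := by
    have h1 := mul_le_mul_of_nonneg_right hJδ (show 0 ≤ t * R ^ p by positivity)
    have h3 := V_low p hx.le h0.le hJt
    have h2 := mul_le_mul_of_nonneg_left h3 (show 0 ≤ δ / 2 by positivity)
    linarith
  linarith

theorem sum_le {k : ℕ} (n : ℕ) {δ t V : ℝ} {B : ℕ} (hV0 : 0 ≤ V)
    (hBδ : ((1 + 1 / (B : ℝ)) ^ 2) ^ n * (1 - δ) ≤ 1 - δ / 2) (ht0 : 0 < t) (x : Fin k → ℝ)
    (b l : Fin k → ℕ) (hb4 : ∀ i, t / b i / 2 ^ l i ≤ (1 + 1 / (B : ℝ)) ^ 2 * x i)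
    (hvol : ∑ i, x i ^ n ≤ (1 - δ) * V) :
    t ^ n * ∑ i : Fin k, (((b i : ℝ) * 2 ^ l i) ^ n)⁻¹ ≤ (1 - δ / 2) * V := by
  calc t ^ n * ∑ i : Fin k, (((b i : ℝ) * 2 ^ l i) ^ n)⁻¹
      = ∑ i : Fin k, (t / b i / 2 ^ l i) ^ n := by
        rw [Finset.mul_sum]
        refine Finset.sum_congr rfl fun i _ => ?_
        rw [div_div, div_pow, div_eq_mul_inv]
    _ ≤ ∑ i : Fin k, ((1 + 1 / (B : ℝ)) ^ 2 * x i) ^ n :=
        Finset.sum_le_sum fun i _ => pow_le_pow_left₀ (by positivity) (hb4 i) _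
    _ = ((1 + 1 / (B : ℝ)) ^ 2) ^ n * ∑ i : Fin k, x i ^ n := by
        rw [Finset.mul_sum]
        exact Finset.sum_congr rfl fun i _ => by rw [mul_pow]
    _ ≤ ((1 + 1 / (B : ℝ)) ^ 2) ^ n * ((1 - δ) * V) := by gcongr
    _ = (((1 + 1 / (B : ℝ)) ^ 2) ^ n * (1 - δ)) * V := by ring
    _ ≤ (1 - δ / 2) * V := by gcongr

/-- the combinatorial core -/
theorem core (p q J B : ℕ) {δ R x t : ℝ} (hB : 1 ≤ B) (hδ : 0 < δ) (ht0 : 0 < t) (hx : 0 < x)
    (h0 : x < R) (hJt : (J : ℝ) * t = R - x) (hq1 : (q : ℝ) * t ≤ x)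
    (hq2 : x < ((q : ℝ) + 1) * t) (hJ2 : (2 : ℝ) ≤ J)
    (hJδ : B + 2 * (p + 1 : ℝ) ≤ J * (δ / 2)) {k : ℕ} (b l : Fin k → ℕ) (hb1 : ∀ i, B ≤ b i)
    (hb2 : ∀ i, b i < 2 * B)
    (hsum : t ^ (p + 1) * ∑ i : Fin k, (((b i : ℝ) * 2 ^ l i) ^ (p + 1))⁻¹ ≤
      (1 - δ / 2) * (R ^ (p + 1) - x ^ (p + 1))) :
    ∃ (M' : Fin k → Matrix (Fin (p + 1)) (Fin (p + 1)) ℤ) (c' : Fin k → Fin (p + 1) → ℝ),
      (∀ i, IsUnit (M' i).det) ∧
      (∀ i, cpy (t / b i / 2 ^ l i) (M' i) (c' i) ⊆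
        {y | y ∈ Sx (p + 1) R ∧ ((q : ℝ) + 1) * t < ∑ i, y i}) ∧
      ∀ i j, i ≠ j →
        Disjoint (cpy (t / b i / 2 ^ l i) (M' i) (c' i))
          (cpy (t / b j / 2 ^ l j) (M' j) (c' j)) := by
  have hJN : 2 ≤ J := by exact_mod_cast hJ2
  obtain ⟨Ma, ca, g1, g2, g3, g4⟩ := alcoves_strong (p + 1) (q + J) (by omega) ht0
  have hmt : ((q + J : ℕ) : ℝ) * t ≤ R := by push_cast; linarith
  have hcells := cells p q J B hδ ht0 hx h0 hJt hq1 hq2 hJ2 hJδ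
  refine fill (κ := {g : Fin (p + 1) → Fin (q + J) // ∃ i, q + 1 ≤ (g i : ℕ)})
    _ ht0 (fun g => Ma g.1) (fun g => ca g.1) (fun g => g1 _) (fun g => ?_)
    (fun g g' h => g3 _ _ fun h2 => h (Subtype.ext h2)) B hB b hb1 hb2 l ?_
  · intro y hy
    refine ⟨Sx_mono hmt (g2 _ hy), ?_⟩
    obtain ⟨i, hi⟩ := g.2
    have h1 := g4 g.1 i y hy
    have h2 : ((q : ℝ) + 1) ≤ (g.1 i : ℕ) := by exact_mod_cast hi
    exact lt_of_le_of_lt (mul_le_mul_of_nonneg_right h2 ht0.le) h1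
  · have h1 := card_slab (p + 1) (q + J) (q + 1)
    have h2 : (((q + J : ℕ) : ℝ)) ^ (p + 1) ≤
        (Fintype.card {g : Fin (p + 1) → Fin (q + J) // ∃ i, q + 1 ≤ (g i : ℕ)} : ℝ) +
          ((q : ℝ) + 1) ^ (p + 1) := by exact_mod_cast h1
    have h3 : ∑ i : Fin k, (((b i : ℝ) * 2 ^ l i) ^ (p + 1))⁻¹ + B ≤
        (Fintype.card {g : Fin (p + 1) → Fin (q + J) // ∃ i, q + 1 ≤ (g i : ℕ)} : ℝ) := by
      rw [mul_pow, mul_pow] at hcells
      have htp : 0 < t ^ (p + 1) := by positivity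
      have h5 : t ^ (p + 1) * (∑ i : Fin k, (((b i : ℝ) * 2 ^ l i) ^ (p + 1))⁻¹ + B) ≤
          t ^ (p + 1) * ((((q + J : ℕ) : ℝ)) ^ (p + 1) - ((q : ℝ) + 1) ^ (p + 1)) := by
        linarith
      have h6 := le_of_mul_le_mul_left h5 htp
      linarith
    have h7 : (((∑ i : Fin k, (((b i : ℚ) * 2 ^ l i) ^ (p + 1))⁻¹ + B : ℚ)) : ℝ) ≤
        ((Fintype.card {g : Fin (p + 1) → Fin (q + J) // ∃ i, q + 1 ≤ (g i : ℕ)} : ℚ) : ℝ) := by
      push_cast
      exact h3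
    exact Rat.cast_le.1 h7

end SharpAux

open SharpAux in
/-- Asymptotically sharp volume form: next to one ball of arbitrary size, finitely many balls that
are small compared with `R - a 0` can be packed up to the proportion `1 - δ` of the volume. -/
theorem sharp {n : ℕ} (hn : 1 ≤ n) {δ : ℝ} (hδ : 0 < δ) :
    ∃ η : ℝ, 0 < η ∧ ∀ (k : ℕ) (R : ℝ) (a : Fin (k + 1) → ℝ), (∀ i, 0 < a i) → a 0 < R →
      (∀ i, i ≠ 0 → a i ≤ η * (R - a 0)) →
      ∑ i ∈ Finset.univ.erase 0, a i ^ n ≤ (1 - δ) * (R ^ n - a 0 ^ n) → Packs n R a := by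
  obtain ⟨p, rfl⟩ : ∃ p, n = p + 1 := ⟨n - 1, by omega⟩
  obtain ⟨B, hB, hBδ⟩ := exists_B (p + 1) hδ
  have hB0 : (1 : ℝ) ≤ B := by exact_mod_cast hB
  obtain ⟨J, hJ⟩ := exists_nat_ge (2 * (B + 2 * (p + 1 : ℝ)) / δ + 2)
  have hJ2 : (2 : ℝ) ≤ J := by
    have : 0 ≤ 2 * (B + 2 * (p + 1 : ℝ)) / δ := by positivity
    linarith
  have hJδ : B + 2 * (p + 1 : ℝ) ≤ J * (δ / 2) := by
    have h1 : 2 * (B + 2 * (p + 1 : ℝ)) / δ ≤ J := by linarith
    rw [div_le_iff₀ hδ] at h1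
    linarith
  refine ⟨1 / (2 * J * B), by positivity, fun k R a ha h0 hsm hvol => ?_⟩
  have hρ0 : 0 < R - a 0 := by linarith
  obtain ⟨t, ht⟩ : ∃ t, t = (R - a 0) / J := ⟨_, rfl⟩
  have ht0 : 0 < t := by rw [ht]; positivity
  have hJt : (J : ℝ) * t = R - a 0 := by rw [ht]; field_simp
  obtain ⟨q, hq⟩ : ∃ q, q = ⌊a 0 / t⌋₊ := ⟨_, rfl⟩
  have hq1 : (q : ℝ) * t ≤ a 0 := by
    rw [← le_div_iff₀ ht0, hq]
    exact Nat.floor_le (div_nonneg (ha 0).le ht0.le)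
  have hq2 : a 0 < ((q : ℝ) + 1) * t := by
    rw [← div_lt_iff₀ ht0, hq]
    exact Nat.lt_floor_add_one _
  have hround : ∀ i : Fin k, ∃ b l : ℕ, B ≤ b ∧ b < 2 * B ∧
      (1 + 1 / (B : ℝ)) * a i.succ ≤ t / b / 2 ^ l ∧
      t / b / 2 ^ l ≤ (1 + 1 / (B : ℝ)) ^ 2 * a i.succ := by
    intro i
    refine round' hB ht0 (ha _) ((hsm i.succ (Fin.succ_ne_zero i)).trans (le_of_eq ?_))
    rw [← hJt]
    field_simp
  choose b l hb1 hb2 hb3 hb4 using hround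
  have e1 : ∑ i ∈ Finset.univ.erase 0, a i ^ (p + 1) = ∑ i : Fin k, a i.succ ^ (p + 1) := by
    rw [Finset.sum_erase_eq_sub (Finset.mem_univ _), Fin.sum_univ_succ]
    ring
  rw [e1] at hvol
  have hV0 : 0 ≤ R ^ (p + 1) - a 0 ^ (p + 1) :=
    le_trans (mul_nonneg hρ0.le (pow_nonneg (by linarith [ha 0]) _)) (V_low p (ha 0).le h0.le rfl)
  have hsum := sum_le (p + 1) hV0 hBδ ht0 (fun i => a i.succ) b l hb4 hvol
  obtain ⟨M', c', f1, f2, f3⟩ := core p q J B hB hδ ht0 (ha 0) h0 hJt hq1 hq2 hJ2 hJδ b l hb1 hb2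
    hsum
  refine assemble (s0 := ((q : ℝ) + 1) * t) (fun i => t / b i / 2 ^ l i) M' c' hq2
    (fun i => ?_) ?_ f1 f2 f3
  · have hai := ha i.succ
    refine lt_of_lt_of_le ?_ (hb3 i)
    have : 0 < 1 / (B : ℝ) := by positivity
    nlinarith
  · have : 2 * t ≤ R - a 0 := by rw [← hJt]; nlinarith
    linarith

end P209
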