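import Vale.Agent.P209.Defs

/-!
# P209 skeleton (exact statements, do not import)
-/

open Set Topology
open scoped ContDiff

namespace P209

variable {n : ℕ}

/-! ## [D] Disc.lean : the area preserving map `(p,q) ↦ (dX, dY)`

With `E = p²+q²+b`, `m = √(E+b)`, `x2 = E + p m > 0`, `τ = q m / x2` one has
`(x2-E)² + τ² x2² = (E-b)(E+b)`, hence `E = x2 (1+τ²)/2 + b²/(2 x2)` and `dX = π x2 (1+τ²)/2`.
So from `(X,Y)`: `τ = tan (π Y)`, `x2 = 2 X /(π (1+τ²))`, `E = X/π + b²/(2 x2)`, `m = √(E+b)`,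
`p = (x2-E)/m`, `q = τ x2 / m`. -/

theorem dX_pos {b : ℝ} (hb : 0 < b) (p q : ℝ) : 0 < dX b p q := by
  sorry

theorem dX_lt {b : ℝ} (hb : 0 < b) (p q : ℝ) :
    dX b p q < Real.pi * (p ^ 2 + q ^ 2) + Real.pi * b := by
  sorry

theorem dY_mem {b : ℝ} (hb : 0 < b) (p q : ℝ) : dY b p q ∈ Ioo (-(1 / 2) : ℝ) (1 / 2) := by
  sorry

theorem d_inv {b : ℝ} (hb : 0 < b) : ∃ g : ℝ × ℝ → ℝ × ℝ,
    ContinuousOn g (Ioi (0 : ℝ) ×ˢ Ioo (-(1 / 2) : ℝ) (1 / 2)) ∧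
      ∀ p q : ℝ, g (dX b p q, dY b p q) = (p, q) := by
  sorry

theorem dX_smooth {b : ℝ} (hb : 0 < b) : ContDiff ℝ ∞ fun z : ℝ × ℝ => dX b z.1 z.2 := by
  sorry

theorem dY_smooth {b : ℝ} (hb : 0 < b) : ContDiff ℝ ∞ fun z : ℝ × ℝ => dY b z.1 z.2 := by
  sorry

/-- area preservation, in the form used by [T] -/
theorem d_area {b : ℝ} (hb : 0 < b) (z v w : ℝ × ℝ) :
    fderiv ℝ (fun z : ℝ × ℝ => dX b z.1 z.2) z v * fderiv ℝ (fun z : ℝ × ℝ => dY b z.1 z.2) z w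
      - fderiv ℝ (fun z : ℝ × ℝ => dY b z.1 z.2) z v *
        fderiv ℝ (fun z : ℝ × ℝ => dX b z.1 z.2) z w = v.1 * w.2 - v.2 * w.1 := by
  sorry

/-! ## [P] Polar.lean : the map `(x,y) ↦ √(x/π) exp(2π i y)` -/

noncomputable def pol (x y : ℝ) : ℂ := (√(x / Real.pi) : ℂ) * Complex.exp (2 * Real.pi * y * Complex.I)

theorem pol_smooth : ContDiffOn ℝ ∞ (fun z : ℝ × ℝ => pol z.1 z.2) (Ioi (0 : ℝ) ×ˢ univ) := by
  sorry

theorem pol_norm {x : ℝ} (hx : 0 ≤ x) (y : ℝ) : Real.pi * ‖pol x y‖ ^ 2 = x := by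
  sorry

theorem pol_area {z : ℝ × ℝ} (hz : 0 < z.1) (v w : ℝ × ℝ) :
    (fderiv ℝ (fun z : ℝ × ℝ => pol z.1 z.2) z v).re * (fderiv ℝ (fun z : ℝ × ℝ => pol z.1 z.2) z w).im
      - (fderiv ℝ (fun z : ℝ × ℝ => pol z.1 z.2) z v).im *
        (fderiv ℝ (fun z : ℝ × ℝ => pol z.1 z.2) z w).re = v.1 * w.2 - v.2 * w.1 := by
  sorry

/-! ## [T] Toric.lean : from unimodular simplices to packings (uses [D], [P]).
Map: `X_j = dX b (re z_j) (im z_j)`, `Y_j = dY ..`, `X' = M X + c`, `Y' = (M⁻¹)ᵀ Y`,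
`w_j = pol X'_j Y'_j`; `b` small with `a + n π b < s`; `U = {z | π ∑ |z_j|² < s - n π b}`.
Inverse: `X = M⁻¹ (π |w|² - c)`, `Y_k = arg (∏_j (w_j/|w_j|)^{M_jk}) / (2π)`, then [D] `d_inv`. -/

theorem toric_one {a s R : ℝ} (has : a < s) (M : Matrix (Fin n) (Fin n) ℤ) (hM : IsUnit M.det)
    (c : Fin n → ℝ) (hin : cpy s M c ⊆ Sx n R) :
    ∃ (U : Set (Cn n)) (φ : Cn n → Cn n), IsSympEmb U φ a ∧ ∀ z ∈ U, mom (φ z) ∈ cpy s M c := by
  sorry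

theorem toric {ι : Type} {R : ℝ} {a s : ι → ℝ} (has : ∀ i, a i < s i)
    (M : ι → Matrix (Fin n) (Fin n) ℤ) (hM : ∀ i, IsUnit (M i).det) (c : ι → Fin n → ℝ)
    (hin : ∀ i, cpy (s i) (M i) (c i) ⊆ Sx n R)
    (hdis : ∀ i j, i ≠ j → Disjoint (cpy (s i) (M i) (c i)) (cpy (s j) (M j) (c j))) :
    Packs n R a := by
  sorry

/-! ## [A] Alcove.lean : the `m^n` alcoves of the simplex of size `m t`.
For `g : Fin n → Fin m` and `X ∈ Sx n t` put `t_i = X_0 + ... + X_i` (so `0 < t_0 < ... < t_{n-1} < t`),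
`s` = the numbers `g_i t + t_i` sorted increasingly (the order is the lexicographic order of the
pairs `(g_i, i)`, independent of `X`), `x_0 = s_0`, `x_j = s_j - s_{j-1}`. Disjointness: the
`t_i` are the sorted residues of the partial sums of `x` modulo `t`. -/

theorem alcoves (n m : ℕ) {t : ℝ} (ht : 0 < t) :
    ∃ (M : (Fin n → Fin m) → Matrix (Fin n) (Fin n) ℤ) (c : (Fin n → Fin m) → Fin n → ℝ),
      (∀ g, IsUnit (M g).det) ∧ (∀ g, cpy t (M g) (c g) ⊆ Sx n (m * t)) ∧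
      (∀ g g', g ≠ g' → Disjoint (cpy t (M g) (c g)) (cpy t (M g') (c g'))) ∧
      ∀ g, (∃ i, (g i : ℕ) + 1 = m) → ∀ x ∈ cpy t (M g) (c g), ((m : ℝ) - 1) * t < ∑ i, x i := by
  sorry

/-! ## [S] Slab.lean : one big ball and `m^n - (m-1)^n` equal small ones (uses [T], [A]) -/

theorem slab {n m k : ℕ} (hn : 1 ≤ n) (hm : 1 ≤ m) {R : ℝ} {a : Fin (k + 1) → ℝ}
    (ha : ∀ i, 0 < a i) (hk : k + (m - 1) ^ n ≤ m ^ n) (h0 : a 0 < R)
    (h1 : ∀ i, i ≠ 0 → a 0 + a i < R) (h2 : ∀ i, i ≠ 0 → m * a i < R) : Packs n R a := by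
  sorry

/-- the two-ball condition is sufficient for at most `2^n` balls -/
theorem two_ball {n k : ℕ} (hn : 1 ≤ n) (hk : k ≤ 2 ^ n) {R : ℝ} {a : Fin k → ℝ}
    (ha : ∀ i, 0 < a i) (hR : ∀ i, a i < R) (h : ∀ i j, i ≠ j → a i + a j < R) : Packs n R a := by
  sorry

/-! ## [K] Kraft.lean : dyadic subdivision (uses [A] with `m = 2` repeatedly).
`N` disjoint unimodular copies of the simplex of size `t` inside an open set of the moment space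
can be filled by copies of sizes `t 2^{-l_i}` as soon as `∑ 2^{-n l_i} ≤ N`
(group the smallest ones into blocks of `2^n`, induction on `max l_i`). -/

theorem kraft {n N k : ℕ} (D : Set (Fin n → ℝ)) {t : ℝ} (ht : 0 < t)
    (M : Fin N → Matrix (Fin n) (Fin n) ℤ) (c : Fin N → Fin n → ℝ) (hM : ∀ i, IsUnit (M i).det)
    (hin : ∀ i, cpy t (M i) (c i) ⊆ D)
    (hdis : ∀ i j, i ≠ j → Disjoint (cpy t (M i) (c i)) (cpy t (M j) (c j)))
    (l : Fin k → ℕ) (hl : ∑ i, (((2 : ℚ) ^ n) ^ l i)⁻¹ ≤ N) :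
    ∃ (M' : Fin k → Matrix (Fin n) (Fin n) ℤ) (c' : Fin k → Fin n → ℝ),
      (∀ i, IsUnit (M' i).det) ∧ (∀ i, cpy (t / 2 ^ l i) (M' i) (c' i) ⊆ D) ∧
      ∀ i j, i ≠ j → Disjoint (cpy (t / 2 ^ l i) (M' i) (c' i)) (cpy (t / 2 ^ l j) (M' j) (c' j)) := by
  sorry

/-! ## [F] Final.lean : coarse form of Conjecture A for ALL `k` (uses [S]-type slab, [K], [T]).
`a 0` is the largest ball. If `a 0 ≥ R/2`: `t` slightly smaller than `R - a 0`, `m = ⌊R/t⌋ ≥ 2`,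
slab of `m^n-(m-1)^n` alcoves of size `t`, round the other `a i` up to `t 2^{-l_i}`
(`(2/3)^n ((m+1)^n - m^n) ≤ m^n - (m-1)^n`). If `a 0 < R/2`: `2^n` alcoves of size `R/2`, all balls
rounded up (`(4/3)^n ≤ 2^n - 1` for `n ≥ 2`, one cell is kept for `a 0`). -/

theorem coarse {n k : ℕ} (hn : 2 ≤ n) {R : ℝ} {a : Fin (k + 1) → ℝ} (ha : ∀ i, 0 < a i)
    (hmax : ∀ i, a i ≤ a 0) (h0 : a 0 < R) (h2 : ∀ i, i ≠ 0 → a 0 + a i < R)
    (hvol : 3 ^ n * ∑ i ∈ Finset.univ.erase 0, a i ^ n ≤ R ^ n - a 0 ^ n) :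
    Packs n R a := by
  sorry

end P209
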