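import Vale.Agent.P209.Toric
import Vale.Agent.P209.Kraft

/-!
# P209 [S]: one big ball and equal small ones; the two-ball condition for `k ≤ 2^n`
-/

open Set Topology
open scoped ContDiff

namespace P209

namespace SlabAux

theorem packs_equiv {n : ℕ} {ι ι' : Type} (e : ι ≃ ι') {R : ℝ} {a : ι' → ℝ}
    (h : Packs n R (a ∘ e)) : Packs n R a := by
  obtain ⟨U, φ, h1, h2, h3⟩ := h
  refine ⟨fun i => U (e.symm i), fun i => φ (e.symm i), fun i => ?_, fun i => ?_, fun i j hij => ?_⟩
  · simpa using h1 (e.symm i)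
  · simpa using h2 (e.symm i)
  · simpa using h3 (e.symm i) (e.symm j) (fun h => hij (e.symm.injective h))

theorem cpy_shift {n : ℕ} (t : ℝ) (M : Matrix (Fin n) (Fin n) ℤ) (c v : Fin n → ℝ) (x : Fin n → ℝ) :
    x ∈ cpy t M (c + v) ↔ x - v ∈ cpy t M c := by
  constructor
  · rintro ⟨y, hy, rfl⟩
    exact ⟨y, hy, by simp [← add_assoc]⟩
  · rintro ⟨y, hy, hxy⟩
    refine ⟨y, hy, ?_⟩
    simp only at hxy ⊢
    rw [← add_assoc, hxy, sub_add_cancel]

theorem cpy_one {n : ℕ} (t : ℝ) : cpy t (1 : Matrix (Fin n) (Fin n) ℤ) 0 = Sx n t := by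
  ext x
  simp [cpy]

/-- shift in the direction of the first coordinate -/
def sh {n : ℕ} (hn : 1 ≤ n) (r : ℝ) : Fin n → ℝ := Pi.single ⟨0, hn⟩ r

theorem sum_sh {n : ℕ} (hn : 1 ≤ n) (r : ℝ) : ∑ i, sh hn r i = r := by
  simp [sh]

theorem sh_nonneg {n : ℕ} (hn : 1 ≤ n) {r : ℝ} (hr : 0 ≤ r) (i : Fin n) : 0 ≤ sh hn r i := by
  unfold sh
  by_cases h : i = ⟨0, hn⟩
  · subst h
    simpa using hr
  · rw [Pi.single_eq_of_ne h]

theorem card_g {n m k : ℕ} (hk : k + (m - 1) ^ n ≤ m ^ n) :
    ∃ g : Fin k → (Fin n → Fin m), Function.Injective g ∧ ∀ j, ∃ i, (g j i : ℕ) + 1 = m := by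
  classical
  have h1 : Fintype.card {x : Fin m // (x : ℕ) + 1 ≠ m} ≤ m - 1 := by
    have := Fintype.card_le_of_injective (β := Fin (m - 1))
      (fun x : {x : Fin m // (x : ℕ) + 1 ≠ m} => (⟨x.1, by have := x.1.2; have := x.2; omega⟩ : Fin (m - 1)))
      (by
        intro x y hxy
        simp only [Fin.mk.injEq] at hxy
        exact Subtype.ext (Fin.ext hxy))
    simpa using this
  have h2 : Fintype.card {g : Fin n → Fin m // ∀ i, (g i : ℕ) + 1 ≠ m} ≤ (m - 1) ^ n := by
    rw [Fintype.card_congr (Equiv.subtypePiEquivPi (β := fun _ : Fin n => Fin m)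
      (p := fun _ (x : Fin m) => (x : ℕ) + 1 ≠ m))]
    rw [Fintype.card_pi]
    simp only [Finset.prod_const, Finset.card_univ, Fintype.card_fin]
    exact Nat.pow_le_pow_left h1 n
  have h3 : k ≤ Fintype.card {g : Fin n → Fin m // ¬ ∀ i, (g i : ℕ) + 1 ≠ m} := by
    rw [Fintype.card_subtype_compl]
    have : Fintype.card (Fin n → Fin m) = m ^ n := by simp
    rw [this]
    omega
  have h4 : Nonempty (Fin k ↪ {g : Fin n → Fin m // ¬ ∀ i, (g i : ℕ) + 1 ≠ m}) := by
    apply Function.Embedding.nonempty_of_card_le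
    simpa using h3
  obtain ⟨e⟩ := h4
  refine ⟨fun j => (e j).1, fun i j h => e.injective (Subtype.ext h), fun j => ?_⟩
  have := (e j).2
  push Not at this
  exact this

end SlabAux

open SlabAux

theorem slab {n m k : ℕ} (hn : 1 ≤ n) (hm : 1 ≤ m) {R : ℝ} {a : Fin (k + 1) → ℝ}
    (ha : ∀ i, 0 < a i) (hk : k + (m - 1) ^ n ≤ m ^ n) (h0 : a 0 < R)
    (h1 : ∀ i, i ≠ 0 → a 0 + a i < R) (h2 : ∀ i, i ≠ 0 → m * a i < R) : Packs n R a := by
  have hm' : (0 : ℝ) < m := by exact_mod_cast hm
  -- choice of `t`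
  obtain ⟨t, ht1, ht0, ht2, ht3⟩ : ∃ t : ℝ, (∀ i, i ≠ 0 → a i < t) ∧ 0 < t ∧ t < R - a 0 ∧
      m * t < R := by
    set f : Fin (k + 1) → ℝ := fun i => if i = 0 then 0 else a i with hf
    have hR : 0 < R := (ha 0).trans h0
    have hlt : Finset.univ.sup' Finset.univ_nonempty f < min (R - a 0) (R / m) := by
      rw [Finset.sup'_lt_iff]
      intro i _
      by_cases hi : i = 0
      · simp only [hf, hi, if_true, lt_min_iff]
        exact ⟨by linarith, by positivity⟩
      · simp only [hf, hi, if_false, lt_min_iff]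
        refine ⟨by linarith [h1 i hi], ?_⟩
        rw [lt_div_iff₀ hm']
        linarith [h2 i hi, mul_comm (a i) (m : ℝ)]
    obtain ⟨t, ht, ht'⟩ := exists_between hlt
    have hft : ∀ i, f i < t := fun i => (Finset.le_sup' f (Finset.mem_univ i)).trans_lt ht
    refine ⟨t, fun i hi => ?_, ?_, (lt_min_iff.1 ht').1, ?_⟩
    · have := hft i
      simpa [hf, hi] using this
    · have := hft 0
      simpa [hf] using this
    · have := (lt_min_iff.1 ht').2
      rw [lt_div_iff₀ hm'] at this
      linarith [mul_comm t (m : ℝ)]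
  obtain ⟨M, c, hM, hin, hdis, hsl⟩ := alcoves n m hm ht0
  obtain ⟨g, hg, hgm⟩ := card_g hk
  set r : ℝ := R - m * t with hr
  have hr0 : 0 ≤ r := by linarith
  refine toric (s := Fin.cons (R - t) fun _ => t) (fun i => ?_)
    (Fin.cons 1 fun j => M (g j)) (fun i => ?_) (Fin.cons 0 fun j => c (g j) + sh hn r)
    (fun i => ?_) (fun i j hij => ?_)
  · refine Fin.cases ?_ (fun j => ?_) i
    · simp only [Fin.cons_zero]
      linarith
    · simp only [Fin.cons_succ]
      exact ht1 _ (Fin.succ_ne_zero j)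
  · refine Fin.cases ?_ (fun j => ?_) i
    · simp
    · simpa using hM (g j)
  · refine Fin.cases ?_ (fun j => ?_) i
    · simp only [Fin.cons_zero, cpy_one]
      rintro x ⟨hx, hx'⟩
      exact ⟨hx, by linarith⟩
    · simp only [Fin.cons_succ]
      intro x hx
      rw [cpy_shift] at hx
      obtain ⟨hx1, hx2⟩ := hin _ hx
      refine ⟨fun i => ?_, ?_⟩
      · have h3 := hx1 i
        have h4 := sh_nonneg hn hr0 i
        simp only [Pi.sub_apply] at h3
        linarith
      · simp only [Pi.sub_apply, Finset.sum_sub_distrib, sum_sh] at hx2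
        linarith
  · have hbs : ∀ j : Fin k, Disjoint (cpy (R - t) (1 : Matrix (Fin n) (Fin n) ℤ) 0)
        (cpy t (M (g j)) (c (g j) + sh hn r)) := by
      intro j
      rw [Set.disjoint_left]
      intro x hx hx'
      rw [cpy_one] at hx
      rw [cpy_shift] at hx'
      have h5 := hsl _ (hgm j) _ hx'
      simp only [Pi.sub_apply, Finset.sum_sub_distrib, sum_sh] at h5
      have h6 := hx.2
      have h7 : ((m : ℝ) - 1) * t = m * t - t := by ring
      linarith
    revert hij
    refine Fin.cases ?_ (fun i' => ?_) i <;> refine Fin.cases ?_ (fun j' => ?_) j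
    · intro h
      exact absurd rfl h
    · intro _
      simpa using hbs j'
    · intro _
      simpa using (hbs i').symm
    · intro hij
      have hij' : i' ≠ j' := fun h => hij (by rw [h])
      simp only [Fin.cons_succ]
      rw [Set.disjoint_left]
      intro x hx hx'
      rw [cpy_shift] at hx hx'
      exact Set.disjoint_left.1 (hdis _ _ fun h => hij' (hg h)) hx hx'

/-- the two-ball condition is sufficient for at most `2^n` balls -/
theorem two_ball {n k : ℕ} (hn : 1 ≤ n) (hk : k ≤ 2 ^ n) {R : ℝ} {a : Fin k → ℝ}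
    (ha : ∀ i, 0 < a i) (hR : ∀ i, a i < R) (h : ∀ i j, i ≠ j → a i + a j < R) : Packs n R a := by
  rcases k with _ | k
  · exact ⟨fun i => i.elim0, fun i => i.elim0, fun i => i.elim0, fun i => i.elim0,
      fun i => i.elim0⟩
  · obtain ⟨i0, hi0⟩ := Finite.exists_max a
    apply packs_equiv (Equiv.swap 0 i0)
    refine slab (m := 2) hn (by norm_num) (fun i => ha _) ?_ (hR _) (fun i hi => ?_)
      (fun i hi => ?_)
    · simpa using hk
    · refine h _ _ fun h' => hi ((Equiv.swap 0 i0).injective h').symm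
    · have h1 := h (Equiv.swap 0 i0 0) (Equiv.swap 0 i0 i)
        (fun h' => hi ((Equiv.swap 0 i0).injective h').symm)
      have h2 := hi0 (Equiv.swap 0 i0 i)
      rw [Equiv.swap_apply_left] at h1
      simp only [Function.comp]
      push_cast
      linarith

end P209
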